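import Vale.Agent.P141.PL.H990.Stop
import Vale.Agent.P141.PL.H315.Export

/-! Generations of an atom: the cost of an atom is controlled by the cost inside of one generation. -/

namespace Vale.Agent.P141.PL.H990

noncomputable section

open scoped BigOperators Classical
open Vale.Agent.P141.H315 Vale.Agent.P141.PL.H315

section cheb

variable {X : Type*}

/-- Maximal inequality for a nonnegative martingale on the tree. -/
theorem cheb (g : Grid X) (K : ℕ) (ψ : ℕ → X → ℝ) (h0 : ∀ k z, 0 ≤ ψ k z)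
    (hc : ∀ k z z', z' ∈ g.cube k z → ψ k z' = ψ k z)
    (hm : ∀ k l, k ≤ l → ∀ p, ∑ z ∈ g.cube l p, ψ k z = ∑ z ∈ g.cube l p, ψ l z) (x : X) :
    4 * (((g.cube K x).filter fun z => ∃ m ≤ K, 4 * ψ K z < ψ m z).card : ℝ) ≤
      (g.cube K x).card := by
  have hsum : ∑ z ∈ g.cube K x, ψ K z = (g.cube K x).card * ψ K x := by
    rw [Finset.sum_congr rfl fun z hz => hc K x z hz, Finset.sum_const, nsmul_eq_mul]
  rcases (h0 K x).eq_or_lt with hA | hA
  · have h1 : (g.cube K x).filter (fun z => ∃ m ≤ K, 4 * ψ K z < ψ m z) = ∅ := by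
      rw [Finset.filter_eq_empty_iff]
      rintro z hz ⟨m, hmK, hlt⟩
      have h2 : ∑ z ∈ g.cube K x, ψ m z = 0 := by
        rw [hm m K hmK, hsum, ← hA, mul_zero]
      have h3 := (Finset.sum_eq_zero_iff_of_nonneg fun y _ => h0 m y).mp h2 z hz
      rw [h3] at hlt
      have := h0 K z
      linarith
    rw [h1]
    simp
  · set b : ℕ → X → Prop := fun m z => 4 * ψ K z < ψ m z with hb
    have hbc : ∀ k ≤ K, ∀ z z', z' ∈ g.cube k z → (b k z' ↔ b k z) := by
      intro k hk z z' hz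
      simp only [hb]
      rw [hc k z z' hz, hc K z z' (g.sub_le hk z hz)]
    have hbK : ∀ z, ¬ b K z := by
      intro z hz
      simp only [hb] at hz
      have := h0 K z
      linarith
    set R := ofCond g K b hbc hbK with hR
    have h1 := R.opt_stop' (x := x) (φ := ψ) (h0 0) (fun k _ y => (hm k (k + 1) (Nat.le_succ k) y).le)
    rw [hsum] at h1
    have h2 : ∀ z, R.S 0 z ↔ ∃ m ≤ K, 4 * ψ K z < ψ m z := by
      intro z
      constructor
      · rintro ⟨m, _, h3, h4⟩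
        exact ⟨m, h3, h4⟩
      · rintro ⟨m, h3, h4⟩
        exact ⟨m, Nat.zero_le _, h3, h4⟩
    have h3 : ∀ z ∈ (g.cube K x).filter (fun z => R.S 0 z), 4 * ψ K x ≤ ψ (R.m z) z := by
      intro z hz
      rw [Finset.mem_filter] at hz
      have h4 : b (R.m z) z := ofCond_b hz.2
      simp only [hb] at h4
      rw [hc K x z hz.1] at h4
      exact h4.le
    have h4 := Finset.card_nsmul_le_sum _ _ _ h3
    rw [nsmul_eq_mul] at h4
    have h5 : (g.cube K x).filter (fun z => ∃ m ≤ K, 4 * ψ K z < ψ m z) =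
        (g.cube K x).filter (fun z => R.S 0 z) :=
      Finset.filter_congr fun z _ => (h2 z).symm
    rw [h5]
    have h6 := h4.trans h1
    have h7 : 4 * (((g.cube K x).filter (fun z => R.S 0 z)).card : ℝ) * ψ K x ≤
        (g.cube K x).card * ψ K x := by linarith
    exact le_of_mul_le_mul_right h7 hA

end cheb

section edges

theorem A2_congr {k : ℕ} (u : ℤ × ℤ → ℝ) {s s' t t' : ℤ} (hs : s' ∈ iv k s) (ht : t' ∈ iv k t) :
    A2 k u s' t' = A2 k u s t := by
  unfold A2; rw [iv_eq hs, iv_eq ht]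

/-- the three squares of the norms -/
def q12 (u : Tri) (k : ℕ) (z : ℤ × ℤ × ℤ) : ℝ := A2 k u.1 z.1 z.2.1
def q13 (u : Tri) (k : ℕ) (z : ℤ × ℤ × ℤ) : ℝ := A2 k u.2.1 z.1 z.2.2
def q23 (u : Tri) (k : ℕ) (z : ℤ × ℤ × ℤ) : ℝ := A2 k u.2.2 z.2.1 z.2.2

theorem q12_nonneg (u : Tri) (k : ℕ) (z : ℤ × ℤ × ℤ) : 0 ≤ q12 u k z := A2_nonneg _ _ _ _
theorem q13_nonneg (u : Tri) (k : ℕ) (z : ℤ × ℤ × ℤ) : 0 ≤ q13 u k z := A2_nonneg _ _ _ _
theorem q23_nonneg (u : Tri) (k : ℕ) (z : ℤ × ℤ × ℤ) : 0 ≤ q23 u k z := A2_nonneg _ _ _ _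

theorem q12_congr (u : Tri) (k : ℕ) (z z' : ℤ × ℤ × ℤ) (h : z' ∈ gz.cube k z) :
    q12 u k z' = q12 u k z := by
  have := mem_cube3.mp h
  exact A2_congr _ this.1 this.2.1

theorem q13_congr (u : Tri) (k : ℕ) (z z' : ℤ × ℤ × ℤ) (h : z' ∈ gz.cube k z) :
    q13 u k z' = q13 u k z := by
  have := mem_cube3.mp h
  exact A2_congr _ this.1 this.2.2

theorem q23_congr (u : Tri) (k : ℕ) (z z' : ℤ × ℤ × ℤ) (h : z' ∈ gz.cube k z) :
    q23 u k z' = q23 u k z := by
  have := mem_cube3.mp h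
  exact A2_congr _ this.2.1 this.2.2

theorem mart12 (u : Tri) (k l : ℕ) (h : k ≤ l) (p : ℤ × ℤ × ℤ) :
    ∑ z ∈ gz.cube l p, q12 u k z = ∑ z ∈ gz.cube l p, q12 u l z := by
  have e1 : ∀ (j : ℕ), ∑ z ∈ gz.cube l p, q12 u j z =
      ∑ z ∈ gz.cube l p, avg (gz.cube j z) (fun q => e12 u.1 q ^ 2) := fun j =>
    Finset.sum_congr rfl fun z _ => (avg_e12 j u.1 z).symm
  rw [e1, e1, sum_avg_cubes gz h, sum_avg_cubes gz le_rfl]

theorem mart13 (u : Tri) (k l : ℕ) (h : k ≤ l) (p : ℤ × ℤ × ℤ) :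
    ∑ z ∈ gz.cube l p, q13 u k z = ∑ z ∈ gz.cube l p, q13 u l z := by
  have e1 : ∀ (j : ℕ), ∑ z ∈ gz.cube l p, q13 u j z =
      ∑ z ∈ gz.cube l p, avg (gz.cube j z) (fun q => e13 u.2.1 q ^ 2) := fun j =>
    Finset.sum_congr rfl fun z _ => (avg_e13 j u.2.1 z).symm
  rw [e1, e1, sum_avg_cubes gz h, sum_avg_cubes gz le_rfl]

theorem mart23 (u : Tri) (k l : ℕ) (h : k ≤ l) (p : ℤ × ℤ × ℤ) :
    ∑ z ∈ gz.cube l p, q23 u k z = ∑ z ∈ gz.cube l p, q23 u l z := by
  have e1 : ∀ (j : ℕ), ∑ z ∈ gz.cube l p, q23 u j z =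
      ∑ z ∈ gz.cube l p, avg (gz.cube j z) (fun q => e23 u.2.2 q ^ 2) := fun j =>
    Finset.sum_congr rfl fun z _ => (avg_e23 j u.2.2 z).symm
  rw [e1, e1, sum_avg_cubes gz h, sum_avg_cubes gz le_rfl]

/-- one of the three norms on the squares of scale `m` is more than twice the norm on the squares
of scale `K` -/
def big (u : Tri) (K m : ℕ) (z : ℤ × ℤ × ℤ) : Prop :=
  4 * q12 u K z < q12 u m z ∨ 4 * q13 u K z < q13 u m z ∨ 4 * q23 u K z < q23 u m z

theorem big_congr (u : Tri) (K : ℕ) : ∀ k ≤ K, ∀ z z', z' ∈ gz.cube k z →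
    (big u K k z' ↔ big u K k z) := by
  intro k hk z z' hz
  have hz' := gz.sub_le hk z hz
  unfold big
  rw [q12_congr u k z z' hz, q12_congr u K z z' hz', q13_congr u k z z' hz,
    q13_congr u K z z' hz', q23_congr u k z z' hz, q23_congr u K z z' hz']

theorem not_big (u : Tri) (K : ℕ) : ∀ z, ¬ big u K K z := by
  intro z h
  have h1 := q12_nonneg u K z
  have h2 := q13_nonneg u K z
  have h3 := q23_nonneg u K z
  unfold big at h
  rcases h with h | h | h <;> linarith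

/-- the stopping rule of the generation of the cubes of scale `K` -/
def rl (u : Tri) (K : ℕ) : Rule gz K := ofCond gz K (big u K) (big_congr u K) (not_big u K)

/-- the point `z` is stopped at the scale `k` in the generation of its cube of scale `K` -/
def stopped (u : Tri) (K k : ℕ) (z : ℤ × ℤ × ℤ) : Prop := ∃ m, k ≤ m ∧ m ≤ K ∧ big u K m z

theorem card_stopped (u : Tri) (K : ℕ) (x : ℤ × ℤ × ℤ) :
    (((cube3 K x).filter fun z => stopped u K 0 z).card : ℝ) ≤ 3 / 4 * (cube3 K x).card := by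
  have h1 := cheb gz K (q12 u) (q12_nonneg u) (q12_congr u) (mart12 u) x
  have h2 := cheb gz K (q13 u) (q13_nonneg u) (q13_congr u) (mart13 u) x
  have h3 := cheb gz K (q23 u) (q23_nonneg u) (q23_congr u) (mart23 u) x
  set A := (gz.cube K x).filter fun z => ∃ m ≤ K, 4 * q12 u K z < q12 u m z
  set B := (gz.cube K x).filter fun z => ∃ m ≤ K, 4 * q13 u K z < q13 u m z
  set C := (gz.cube K x).filter fun z => ∃ m ≤ K, 4 * q23 u K z < q23 u m z
  have h4 : (cube3 K x).filter (fun z => stopped u K 0 z) ⊆ A ∪ (B ∪ C) := by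
    intro z hz
    rw [Finset.mem_filter] at hz
    obtain ⟨hz1, m, _, hm, hb⟩ := hz
    rw [Finset.mem_union, Finset.mem_union]
    rcases hb with hb | hb | hb
    · exact Or.inl (Finset.mem_filter.mpr ⟨hz1, m, hm, hb⟩)
    · exact Or.inr (Or.inl (Finset.mem_filter.mpr ⟨hz1, m, hm, hb⟩))
    · exact Or.inr (Or.inr (Finset.mem_filter.mpr ⟨hz1, m, hm, hb⟩))
  have h5 : ((cube3 K x).filter fun z => stopped u K 0 z).card ≤ A.card + (B.card + C.card) :=
    (Finset.card_le_card h4).trans ((Finset.card_union_le _ _).trans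
      (Nat.add_le_add_left (Finset.card_union_le _ _) _))
  have h6 : (((cube3 K x).filter fun z => stopped u K 0 z).card : ℝ) ≤
      A.card + (B.card + C.card) := by exact_mod_cast h5
  have h7 : (gz.cube K x).card = (cube3 K x).card := rfl
  rw [h7] at h1 h2 h3
  linarith

theorem hLW_eq (u : Tri) (k : ℕ) (z : ℤ × ℤ × ℤ) :
    hLW k u z = √(q12 u k z) * √(q13 u k z) * √(q23 u k z) := rfl

theorem hLW_congr (u : Tri) (k : ℕ) (z z' : ℤ × ℤ × ℤ) (h : z' ∈ gz.cube k z) :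
    hLW k u z' = hLW k u z := by
  rw [hLW_eq, hLW_eq, q12_congr u k z z' h, q13_congr u k z z' h, q23_congr u k z z' h]

theorem sum_hLW_le (u : Tri) {k l : ℕ} (h : k ≤ l) (p : ℤ × ℤ × ℤ) :
    ∑ z ∈ gz.cube l p, hLW k u z ≤ ∑ z ∈ gz.cube l p, hLW l u z := by
  have h1 := avg_hLW_sq_le h u p
  have h2 : (avg (cube3 l p) (hLW k u)) ^ 2 ≤ (hLW l u p) ^ 2 := by
    refine h1.trans_eq ?_
    rw [avg_e12, avg_e13, avg_e23]
    unfold hLW
    rw [mul_pow, mul_pow, Real.sq_sqrt (A2_nonneg _ _ _ _), Real.sq_sqrt (A2_nonneg _ _ _ _),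
      Real.sq_sqrt (A2_nonneg _ _ _ _)]
  have h3 := abs_le_of_sq_le_sq h2 (hLW_nonneg l u p)
  have h4 : avg (cube3 l p) (hLW k u) ≤ hLW l u p := (le_abs_self _).trans h3
  have hc := card_cube3_pos l p
  have h5 : ∑ z ∈ gz.cube l p, hLW l u z = (cube3 l p).card * hLW l u p := by
    rw [Finset.sum_congr rfl fun z hz => hLW_congr u l p z hz, Finset.sum_const, nsmul_eq_mul]
    rfl
  rw [h5]
  unfold avg at h4
  rw [inv_mul_le_iff₀ hc] at h4
  exact h4

/-- The weight through the product of the norms. -/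
theorem wN_eq (δ e : ℝ) (k : ℕ) (p : ℤ × ℤ × ℤ) (u : Tri) :
    wN δ e k p u = δ * ((mx (cube3 k p) (e12 u.1) ^ e * mx (cube3 k p) (e13 u.2.1) ^ e *
      mx (cube3 k p) (e23 u.2.2) ^ e) * hLW k u p ^ (1 - e)) := by
  have hh : hLW k u p ^ (1 - e) = A2 k u.1 p.1 p.2.1 ^ ((1 - e) / 2) *
      A2 k u.2.1 p.1 p.2.2 ^ ((1 - e) / 2) * A2 k u.2.2 p.2.1 p.2.2 ^ ((1 - e) / 2) := by
    unfold hLW
    rw [Real.mul_rpow (by positivity) (by positivity), Real.mul_rpow (by positivity) (by positivity),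
      sqrt_rpow_eq (A2_nonneg _ _ _ _), sqrt_rpow_eq (A2_nonneg _ _ _ _),
      sqrt_rpow_eq (A2_nonneg _ _ _ _)]
  rw [hh]
  unfold wN Nm
  rw [avg_e12, avg_e13, avg_e23]
  ring

theorem wN_congr (δ e : ℝ) (k : ℕ) (p p' : ℤ × ℤ × ℤ) (h : p' ∈ cube3 k p) (u : Tri) :
    wN δ e k p' u = wN δ e k p u := by
  unfold wN
  rw [show cube3 k p' = cube3 k p from gz.eq_of_mem k p p' h]

/-- **The stopped weight.** -/
theorem stopped_weight {δ e : ℝ} (hδ : 0 ≤ δ) (h0 : 0 ≤ e) (h1 : e ≤ 1) (u : Tri) (K : ℕ)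
    (x : ℤ × ℤ × ℤ) :
    ∑ z ∈ cube3 K x with stopped u K 0 z, wN δ e ((rl u K).m z) z u ≤
      (3 / 4) ^ e * ((cube3 K x).card * wN δ e K x u) := by
  set R := rl u K with hR
  set M := mx (cube3 K x) (e12 u.1) ^ e * mx (cube3 K x) (e13 u.2.1) ^ e *
    mx (cube3 K x) (e23 u.2.2) ^ e with hM
  have hM0 : 0 ≤ M := by
    have := Real.rpow_nonneg (mx_nonneg (cube3 K x) (e12 u.1)) e
    have := Real.rpow_nonneg (mx_nonneg (cube3 K x) (e13 u.2.1)) e
    have := Real.rpow_nonneg (mx_nonneg (cube3 K x) (e23 u.2.2)) e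
    positivity
  set Q := (cube3 K x).filter fun z => stopped u K 0 z with hQ
  have hc := card_cube3_pos K x
  have hT := hLW_nonneg K u x
  have hwN : 0 ≤ wN δ e K x u := by
    rw [wN_eq]
    exact mul_nonneg hδ (mul_nonneg hM0 (Real.rpow_nonneg hT _))
  rcases Q.eq_empty_or_nonempty with hE | hE
  · rw [hE]
    simp only [Finset.sum_empty]
    positivity
  -- pointwise bound
  have hpt : ∀ z ∈ Q, wN δ e (R.m z) z u ≤ δ * (M * hLW (R.m z) u z ^ (1 - e)) := by
    intro z hz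
    rw [hQ, Finset.mem_filter] at hz
    have hlt : R.m z < K := R.m_lt hz.2
    have hsub : cube3 (R.m z) z ⊆ cube3 K x := by
      have h3 : cube3 K z = cube3 K x := gz.eq_of_mem K x z hz.1
      rw [← h3]
      exact gz.sub_le hlt.le z
    have hm : ∀ f : ℤ × ℤ × ℤ → ℝ, mx (cube3 (R.m z) z) f ^ e ≤ mx (cube3 K x) f ^ e := fun f =>
      Real.rpow_le_rpow (mx_nonneg _ _) (mx_mono hsub f) h0
    have b1 := hm (e12 u.1)
    have b2 := hm (e13 u.2.1)
    have b3 := hm (e23 u.2.2)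
    have n1 := Real.rpow_nonneg (mx_nonneg (cube3 (R.m z) z) (e12 u.1)) e
    have n2 := Real.rpow_nonneg (mx_nonneg (cube3 (R.m z) z) (e13 u.2.1)) e
    have n3 := Real.rpow_nonneg (mx_nonneg (cube3 (R.m z) z) (e23 u.2.2)) e
    rw [wN_eq]
    refine mul_le_mul_of_nonneg_left ?_ hδ
    refine mul_le_mul_of_nonneg_right ?_ (Real.rpow_nonneg (hLW_nonneg _ _ _) _)
    exact mul_le_mul (mul_le_mul b1 b2 n2 (n1.trans b1)) b3 n3 (mul_nonneg (n1.trans b1)
      (n2.trans b2))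
  have h3 : ∑ z ∈ Q, wN δ e (R.m z) z u ≤ δ * (M * ∑ z ∈ Q, hLW (R.m z) u z ^ (1 - e)) := by
    refine (Finset.sum_le_sum hpt).trans_eq ?_
    rw [← Finset.mul_sum, ← Finset.mul_sum]
  -- Hölder
  have hcQ : (0 : ℝ) < Q.card := by exact_mod_cast Finset.card_pos.mpr hE
  have hJ := avg_rpow_le hE (h := fun z => hLW (R.m z) u z) (fun z _ => hLW_nonneg _ u z)
    (θ := 1 - e) (by linarith) (by linarith)
  have hstop : ∑ z ∈ Q, hLW (R.m z) u z ≤ (cube3 K x).card * hLW K u x := by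
    have h4 := R.opt_stop' (x := x) (φ := fun k z => hLW k u z) (fun z => hLW_nonneg _ _ _)
      (fun k _ y => sum_hLW_le u (Nat.le_succ k) y)
    have h5 : ∑ z ∈ gz.cube K x, hLW K u z = (cube3 K x).card * hLW K u x := by
      rw [Finset.sum_congr rfl fun z hz => hLW_congr u K x z hz, Finset.sum_const, nsmul_eq_mul]
      rfl
    rw [h5] at h4
    exact h4
  have hS0 : 0 ≤ ∑ z ∈ Q, hLW (R.m z) u z := Finset.sum_nonneg fun z _ => hLW_nonneg _ _ _
  have hH : ∑ z ∈ Q, hLW (R.m z) u z ^ (1 - e) ≤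
      (3 / 4) ^ e * ((cube3 K x).card * hLW K u x ^ (1 - e)) := by
    have h4 : ∑ z ∈ Q, hLW (R.m z) u z ^ (1 - e) ≤
        (Q.card : ℝ) ^ e * (∑ z ∈ Q, hLW (R.m z) u z) ^ (1 - e) := by
      unfold avg at hJ
      rw [inv_mul_le_iff₀ hcQ, Real.mul_rpow (by positivity) hS0, ← mul_assoc] at hJ
      refine hJ.trans_eq ?_
      congr 1
      rw [Real.inv_rpow hcQ.le, ← Real.rpow_neg hcQ.le]
      nth_rewrite 1 [← Real.rpow_one (Q.card : ℝ)]
      rw [← Real.rpow_add hcQ]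
      congr 1
      ring
    have h5 : (Q.card : ℝ) ^ e ≤ (3 / 4 * (cube3 K x).card) ^ e :=
      Real.rpow_le_rpow hcQ.le (card_stopped u K x) h0
    have h6 : (∑ z ∈ Q, hLW (R.m z) u z) ^ (1 - e) ≤ ((cube3 K x).card * hLW K u x) ^ (1 - e) :=
      Real.rpow_le_rpow hS0 hstop (by linarith)
    refine h4.trans ((mul_le_mul h5 h6 (Real.rpow_nonneg hS0 _) (by positivity)).trans_eq ?_)
    rw [Real.mul_rpow (by norm_num) hc.le, Real.mul_rpow hc.le hT]
    have h7 : ((cube3 K x).card : ℝ) ^ e * ((cube3 K x).card : ℝ) ^ (1 - e) =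
        (cube3 K x).card := by
      rw [← Real.rpow_add hc]; simp
    calc _ = (3 / 4 : ℝ) ^ e * ((((cube3 K x).card : ℝ) ^ e * ((cube3 K x).card : ℝ) ^ (1 - e)) *
          hLW K u x ^ (1 - e)) := by ring
      _ = _ := by rw [h7]
  calc ∑ z ∈ Q, wN δ e (R.m z) z u ≤ δ * (M * ∑ z ∈ Q, hLW (R.m z) u z ^ (1 - e)) := h3
    _ ≤ δ * (M * ((3 / 4) ^ e * ((cube3 K x).card * hLW K u x ^ (1 - e)))) :=
        mul_le_mul_of_nonneg_left (mul_le_mul_of_nonneg_left hH hM0) hδ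
    _ = (3 / 4) ^ e * ((cube3 K x).card * wN δ e K x u) := by rw [wN_eq]; ring

/-- **Generations.** If the cost of an atom inside of one generation is at most `P0` times its
weight, then its whole cost is at most `P0 / (1 - (3/4)^e)` times its weight. -/
theorem generations {δ e P0 : ℝ} (hδ : 0 ≤ δ) (h0 : 0 < e) (h1 : e ≤ 1) (hP0 : 0 ≤ P0) (u : Tri)
    (c : ℕ → ℤ × ℤ × ℤ → ℝ) (n : ℕ)
    (h : ∀ K ≤ n, ∀ x, ∑ k ∈ Finset.range (K + 1), ∑ z ∈ cube3 K x with ¬ stopped u K k z, c k z ≤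
      P0 * wt δ e (cube3 K x) u) :
    ∀ K ≤ n, ∀ x, ∑ k ∈ Finset.range (K + 1), ∑ z ∈ cube3 K x, c k z ≤
      P0 / (1 - (3 / 4) ^ e) * wt δ e (cube3 K x) u := by
  set q : ℝ := (3 / 4) ^ e with hq
  have hq1 : q < 1 := Real.rpow_lt_one (by norm_num) (by norm_num) h0
  set P1 : ℝ := P0 / (1 - q) with hP1
  have hP1' : P0 + P1 * q = P1 := by
    rw [hP1]
    have : 1 - q ≠ 0 := by linarith
    field_simp
    ring
  have hP10 : 0 ≤ P1 := div_nonneg hP0 (by linarith)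
  intro K
  induction K using Nat.strong_induction_on with
  | _ K ih =>
    intro hK x
    set R := rl u K with hR
    -- splitting
    have e1 : ∑ k ∈ Finset.range (K + 1), ∑ z ∈ cube3 K x, c k z =
        (∑ k ∈ Finset.range (K + 1), ∑ z ∈ cube3 K x with ¬ stopped u K k z, c k z) +
        ∑ k ∈ Finset.range (K + 1), ∑ z ∈ cube3 K x with stopped u K k z, c k z := by
      rw [← Finset.sum_add_distrib]
      refine Finset.sum_congr rfl fun k _ => ?_
      rw [add_comm]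
      exact (Finset.sum_filter_add_sum_filter_not _ _ _).symm
    have e2 : ∑ k ∈ Finset.range (K + 1), ∑ z ∈ cube3 K x with stopped u K k z, c k z =
        ∑ z ∈ gz.cube K x with R.S 0 z, ∑ k ∈ Finset.range (R.m z + 1), c k z := by
      have e3 : ∀ k ∈ Finset.range (K + 1), ∑ z ∈ cube3 K x with stopped u K k z, c k z =
          ∑ z ∈ gz.cube K x with R.S 0 z, if k ≤ R.m z then c k z else 0 := by
        intro k _
        rw [← Finset.sum_filter, Finset.filter_filter]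
        refine Finset.sum_congr ?_ fun _ _ => rfl
        ext z
        simp only [Finset.mem_filter]
        refine and_congr_right fun _ => ?_
        constructor
        · intro hs
          exact ⟨R.mono_le (Nat.zero_le k) hs, R.le_m hs⟩
        · rintro ⟨hs, hk⟩
          exact R.mono_le hk (R.S_m hs)
      rw [Finset.sum_congr rfl e3, Finset.sum_comm]
      refine Finset.sum_congr rfl fun z hz => ?_
      have hlt := R.m_lt (Finset.mem_filter.mp hz).2
      rw [← Finset.sum_filter]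
      refine Finset.sum_congr ?_ fun _ _ => rfl
      ext k
      simp only [Finset.mem_filter, Finset.mem_range]
      omega
    have e4 : ∑ z ∈ gz.cube K x with R.S 0 z, ∑ k ∈ Finset.range (R.m z + 1), c k z ≤
        ∑ z ∈ gz.cube K x with R.S 0 z, P1 * wN δ e (R.m z) z u := by
      refine R.sum_stopped_le (k₀ := K) le_rfl (a := fun m z => ∑ k ∈ Finset.range (m + 1), c k z)
        (b := fun m z => P1 * wN δ e m z u) fun k hk y _ => ?_
      have h3 := ih k hk (by omega) y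
      rw [Finset.sum_comm] at h3
      refine h3.trans_eq ?_
      have h4 : ∀ z ∈ gz.cube k y, P1 * wN δ e k z u = P1 * wN δ e k y u := fun z hz => by
        rw [wN_congr δ e k y z hz]
      rw [Finset.sum_congr rfl h4, Finset.sum_const, nsmul_eq_mul, wt_eq]
      show _ = ((cube3 k y).card : ℝ) * _
      ring
    have e5 : ∑ z ∈ gz.cube K x with R.S 0 z, P1 * wN δ e (R.m z) z u ≤
        P1 * (q * wt δ e (cube3 K x) u) := by
      rw [← Finset.mul_sum, wt_eq]
      exact mul_le_mul_of_nonneg_left (stopped_weight hδ h0.le h1 u K x) hP10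
    rw [e1, e2]
    calc _ ≤ P0 * wt δ e (cube3 K x) u + P1 * (q * wt δ e (cube3 K x) u) :=
          add_le_add (h K hK x) (e4.trans e5)
      _ = (P0 + P1 * q) * wt δ e (cube3 K x) u := by ring
      _ = _ := by rw [hP1']

/-- The same in the normalised form (averages). -/
theorem generations_avg {δ e P0 : ℝ} (hδ : 0 ≤ δ) (h0 : 0 < e) (h1 : e ≤ 1) (hP0 : 0 ≤ P0) (u : Tri)
    (c : ℕ → ℤ × ℤ × ℤ → ℝ) (n : ℕ)
    (h : ∀ K ≤ n, ∀ x, ∑ k ∈ Finset.range (K + 1),
      avg (cube3 K x) (fun z => if stopped u K k z then 0 else c k z) ≤ P0 * wN δ e K x u) :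
    ∀ K ≤ n, ∀ x, ∑ k ∈ Finset.range (K + 1), avg (cube3 K x) (c k) ≤
      P0 / (1 - (3 / 4) ^ e) * wN δ e K x u := by
  intro K hK x
  have h3 := generations hδ h0 h1 hP0 u c n (fun K hK x => by
    have h4 := h K hK x
    have hc := card_cube3_pos K x
    unfold avg at h4
    rw [← Finset.mul_sum, inv_mul_le_iff₀ hc] at h4
    rw [wt_eq]
    refine le_of_eq_of_le ?_ (h4.trans_eq (by ring))
    refine Finset.sum_congr rfl fun k _ => ?_
    rw [Finset.sum_filter]
    refine Finset.sum_congr rfl fun z _ => ?_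
    by_cases hs : stopped u K k z <;> simp [hs]) K hK x
  have hc := card_cube3_pos K x
  unfold avg
  rw [← Finset.mul_sum, inv_mul_le_iff₀ hc]
  rw [wt_eq] at h3
  exact h3.trans_eq (by ring)

theorem inv_gen_le {e : ℝ} (h0 : 0 < e) (h1 : e ≤ 1) : 1 / (1 - (3 / 4 : ℝ) ^ e) ≤ 4 / e := by
  have h2 : (3 / 4 : ℝ) ^ e ≤ 1 - e / 4 := by
    have h3 := rpow_one_add_le_one_add_mul_self (s := (-1 / 4 : ℝ)) (by norm_num) h0.le h1
    have h4 : (1 + -1 / 4 : ℝ) = 3 / 4 := by norm_num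
    rw [h4] at h3
    linarith
  rw [div_le_div_iff₀ (by linarith) h0]
  linarith

end edges

end

end Vale.Agent.P141.PL.H990
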