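import Vale.Agent.P141.PL.Defs
import Vale.Agent.P141.PL.H315.ConcreteProc

/-! The measure of the unions of bad sets over all coarser scales, on the fixed grid. -/

namespace Vale.Agent.P141.PL.H990

noncomputable section

open Finset
open scoped Classical

/-- A dyadic interval is the disjoint union of its subintervals. -/
theorem sum_iv_add (a b : ℕ) (M : ℤ) (f : ℤ → ℝ) :
    ∑ x ∈ iv (a + b) M, f x = ∑ y ∈ iv a M, ∑ x ∈ iv b y, f x := by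
  have hmap : ∀ x ∈ iv (a + b) M, ix b x ∈ iv a M := by
    intro x hx
    rw [mem_iv] at hx ⊢
    rw [ix_ix, add_comm b a, hx]
  rw [← sum_fiberwise_of_maps_to hmap]
  refine sum_congr rfl fun y hy => sum_congr ?_ fun _ _ => rfl
  rw [mem_iv] at hy
  ext x
  rw [mem_filter, mem_iv, mem_iv]
  constructor
  · rintro ⟨_, h⟩; exact h
  · intro h
    refine ⟨?_, h⟩
    rw [add_comm a b, ← ix_ix, h, hy]

/-- The bad pairs which belong to the small square `(n0, ni)` of scale `k`, seen at scale `m`. -/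
def bq (bad : ℕ → ℤ → ℤ → ℤ → Finset (ℤ × ℤ)) (k m : ℕ) (n0 ni nj : ℤ) : Finset (ℤ × ℤ) :=
  (iv k n0 ×ˢ iv k ni).filter fun q =>
    q ∈ bad m (n0 / 2 ^ (m - k)) (ni / 2 ^ (m - k)) (nj / 2 ^ (m - k))

/-- The union of the bad sets of all scales between `k` and `K`. -/
def Us (K : ℕ) (bad : ℕ → ℤ → ℤ → ℤ → Finset (ℤ × ℤ)) (k : ℕ) (n0 ni nj : ℤ) : Finset (ℤ × ℤ) :=
  (iv k n0 ×ˢ iv k ni).filter fun q => ∃ m, k ≤ m ∧ m ≤ K ∧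
    q ∈ bad m (n0 / 2 ^ (m - k)) (ni / 2 ^ (m - k)) (nj / 2 ^ (m - k))

theorem mem_Us {K : ℕ} {bad : ℕ → ℤ → ℤ → ℤ → Finset (ℤ × ℤ)} {k : ℕ} {n0 ni nj : ℤ}
    {q : ℤ × ℤ} : q ∈ Us K bad k n0 ni nj ↔ (ix k q.1 = n0 ∧ ix k q.2 = ni) ∧
      ∃ m, k ≤ m ∧ m ≤ K ∧ q ∈ bad m (n0 / 2 ^ (m - k)) (ni / 2 ^ (m - k)) (nj / 2 ^ (m - k)) := by
  unfold Us
  rw [mem_filter, mem_product, mem_iv, mem_iv]

theorem card_Us_le (K : ℕ) (bad : ℕ → ℤ → ℤ → ℤ → Finset (ℤ × ℤ)) (k : ℕ) (n0 ni nj : ℤ) :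
    ((Us K bad k n0 ni nj).card : ℝ) ≤ ∑ m ∈ Icc k K, ((bq bad k m n0 ni nj).card : ℝ) := by
  have h : Us K bad k n0 ni nj ⊆ (Icc k K).biUnion fun m => bq bad k m n0 ni nj := by
    intro q hq
    unfold Us at hq
    rw [mem_filter] at hq
    obtain ⟨h1, m, h2, h3, h4⟩ := hq
    rw [mem_biUnion]
    exact ⟨m, mem_Icc.mpr ⟨h2, h3⟩, mem_filter.mpr ⟨h1, h4⟩⟩
  have h2 := (card_le_card h).trans card_biUnion_le
  exact_mod_cast h2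

/-- The pieces of one bad set. -/
theorem sum_bq (bad : ℕ → ℤ → ℤ → ℤ → Finset (ℤ × ℤ)) {k m : ℕ} (hkm : k ≤ m) (N0 Ni Nj : ℤ)
    (hsub : bad m N0 Ni Nj ⊆ iv m N0 ×ˢ iv m Ni) {nj : ℤ} (hnj : nj ∈ iv (m - k) Nj) :
    ∑ ni ∈ iv (m - k) Ni, ∑ n0 ∈ iv (m - k) N0, ((bq bad k m n0 ni nj).card : ℝ) =
      ((bad m N0 Ni Nj).card : ℝ) := by
  have hj : nj / 2 ^ (m - k) = Nj := mem_iv.mp hnj
  have hmap : ∀ q ∈ bad m N0 Ni Nj, (ix k q.2, ix k q.1) ∈ iv (m - k) Ni ×ˢ iv (m - k) N0 := by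
    intro q hq
    have h1 := mem_product.mp (hsub hq)
    rw [mem_iv, mem_iv] at h1
    have e : k + (m - k) = m := by omega
    rw [mem_product, mem_iv, mem_iv]
    simp only [ix_ix]
    rw [e]
    exact ⟨h1.2, h1.1⟩
  have h2 := card_eq_sum_card_fiberwise hmap
  rw [h2, sum_product]
  push_cast
  refine sum_congr rfl fun ni hni => sum_congr rfl fun n0 hn0 => ?_
  have hi : ni / 2 ^ (m - k) = Ni := mem_iv.mp hni
  have h0 : n0 / 2 ^ (m - k) = N0 := mem_iv.mp hn0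
  congr 2
  ext q
  unfold bq
  rw [mem_filter, mem_filter, mem_product, mem_iv, mem_iv, hi, h0, hj, Prod.mk.injEq]
  tauto

/-- The offsets: the fourth index stays in three intervals. -/
theorem fourth_mem {n : ℕ} {Mi Mj Ml o ni nj nl : ℤ} (ho : |o| ≤ 1) (hi : ni ∈ iv n Mi)
    (hj : nj ∈ iv n Mj) (hl : nl ∈ iv n Ml) :
    ∃ M0 ∈ Ico (-(Mi + Mj + Ml) - 3) (-(Mi + Mj + Ml)), o - 2 - ni - nj - nl ∈ iv n M0 := by
  have h2 : (0 : ℤ) < 2 ^ n := by positivity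
  unfold iv at hi hj hl
  rw [mem_Ico] at hi hj hl
  rw [abs_le] at ho
  refine ⟨ix n (o - 2 - ni - nj - nl), ?_, self_mem_iv _ _⟩
  have h3 := self_mem_iv n (o - 2 - ni - nj - nl)
  set M0 := ix n (o - 2 - ni - nj - nl) with hM0
  unfold iv at h3
  rw [mem_Ico] at h3 ⊢
  have e1 : 2 ^ n * (-(Mi + Mj + Ml) - 3) < 2 ^ n * (M0 + 1) := by nlinarith
  have e2 : 2 ^ n * M0 < 2 ^ n * (-(Mi + Mj + Ml)) := by nlinarith
  have e3 := lt_of_mul_lt_mul_left e1 h2.le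
  have e4 := lt_of_mul_lt_mul_left e2 h2.le
  constructor <;> omega

/-- The sum over the boxes through the fourth index. -/
theorem sum_fourth_le {n : ℕ} {Mi Mj Ml o : ℤ} (ho : |o| ≤ 1) (g : ℤ → ℤ → ℤ → ℝ)
    (hg : ∀ a b c, 0 ≤ g a b c) :
    ∑ ni ∈ iv n Mi, ∑ nj ∈ iv n Mj, ∑ nl ∈ iv n Ml, g (o - 2 - ni - nj - nl) ni nj ≤
      ∑ M0 ∈ Ico (-(Mi + Mj + Ml) - 3) (-(Mi + Mj + Ml)),
        ∑ nj ∈ iv n Mj, ∑ ni ∈ iv n Mi, ∑ n0 ∈ iv n M0, g n0 ni nj := by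
  rw [sum_comm' (s := Ico (-(Mi + Mj + Ml) - 3) (-(Mi + Mj + Ml))) (t := fun _ => iv n Mj)
    (t' := iv n Mj) (s' := fun _ => Ico (-(Mi + Mj + Ml) - 3) (-(Mi + Mj + Ml)))
    (by intro x y; tauto)]
  rw [sum_comm]
  refine sum_le_sum fun nj hnj => ?_
  rw [sum_comm' (s := Ico (-(Mi + Mj + Ml) - 3) (-(Mi + Mj + Ml))) (t := fun _ => iv n Mi)
    (t' := iv n Mi) (s' := fun _ => Ico (-(Mi + Mj + Ml) - 3) (-(Mi + Mj + Ml)))
    (by intro x y; tauto)]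
  refine sum_le_sum fun ni hni => ?_
  rw [← sum_biUnion (s := Ico (-(Mi + Mj + Ml) - 3) (-(Mi + Mj + Ml))) (t := fun M0 => iv n M0)
    (f := fun n0 => g n0 ni nj) (by
      intro a _ b _ hab
      rw [Function.onFun, disjoint_left]
      intro x hx hx'
      rw [mem_iv] at hx hx'
      exact hab (hx.symm.trans hx'))]
  have hinj : Set.InjOn (fun nl => o - 2 - ni - nj - nl) (iv n Ml : Set ℤ) := by
    intro a _ b _ hab
    simp only at hab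
    omega
  rw [← sum_image (f := fun n0 => g n0 ni nj) (fun a ha b hb h => hinj ha hb h)]
  refine sum_le_sum_of_subset_of_nonneg ?_ fun _ _ _ => hg _ _ _
  intro n0 h0
  rw [mem_image] at h0
  obtain ⟨nl, hl, rfl⟩ := h0
  rw [mem_biUnion]
  obtain ⟨M0, h1, h2⟩ := fourth_mem ho hni hnj hl
  exact ⟨M0, h1, h2⟩

/-- One scale. -/
theorem meas_one (bad : ℕ → ℤ → ℤ → ℤ → Finset (ℤ × ℤ)) {β : ℝ} {K k m : ℕ} (hkm : k ≤ m)
    (hmK : m ≤ K) (hsub : ∀ n0 ni nj, bad m n0 ni nj ⊆ iv m n0 ×ˢ iv m ni)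
    (hcard : ∀ n0 ni nj, ((bad m n0 ni nj).card : ℝ) ≤ β * 4 ^ m) {Mi Mj Ml o : ℤ}
    (ho : |o| ≤ 1) :
    ∑ ni ∈ iv (K - k) Mi, ∑ nj ∈ iv (K - k) Mj, ∑ nl ∈ iv (K - k) Ml,
      ((bq bad k m (o - 2 - ni - nj - nl) ni nj).card : ℝ) ≤ 3 * β * 8 ^ (K - k) * 4 ^ k := by
  refine (sum_fourth_le ho (fun n0 ni nj => ((bq bad k m n0 ni nj).card : ℝ))
    fun _ _ _ => Nat.cast_nonneg _).trans ?_
  have e : K - k = (K - m) + (m - k) := by omega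
  have h1 : ∀ M0 : ℤ, ∑ nj ∈ iv (K - k) Mj, ∑ ni ∈ iv (K - k) Mi, ∑ n0 ∈ iv (K - k) M0,
      ((bq bad k m n0 ni nj).card : ℝ) ≤ β * 8 ^ (K - k) * 4 ^ k := by
    intro M0
    have h2 : ∑ nj ∈ iv (K - k) Mj, ∑ ni ∈ iv (K - k) Mi, ∑ n0 ∈ iv (K - k) M0,
        ((bq bad k m n0 ni nj).card : ℝ) =
        ∑ Nj ∈ iv (K - m) Mj, ∑ nj ∈ iv (m - k) Nj, ∑ Ni ∈ iv (K - m) Mi, ∑ N0 ∈ iv (K - m) M0,
          ((bad m N0 Ni Nj).card : ℝ) := by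
      rw [e, sum_iv_add]
      refine sum_congr rfl fun Nj _ => sum_congr rfl fun nj hnj => ?_
      rw [sum_iv_add]
      refine sum_congr rfl fun Ni _ => ?_
      have h3 : ∀ ni : ℤ, ∑ n0 ∈ iv (K - m + (m - k)) M0, ((bq bad k m n0 ni nj).card : ℝ) =
          ∑ N0 ∈ iv (K - m) M0, ∑ n0 ∈ iv (m - k) N0, ((bq bad k m n0 ni nj).card : ℝ) :=
        fun ni => sum_iv_add _ _ _ _
      rw [sum_congr rfl fun ni _ => h3 ni, sum_comm]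
      exact sum_congr rfl fun N0 _ => sum_bq bad hkm N0 Ni Nj (hsub _ _ _) hnj
    rw [h2]
    calc _ ≤ ∑ Nj ∈ iv (K - m) Mj, ∑ nj ∈ iv (m - k) Nj, ∑ Ni ∈ iv (K - m) Mi,
          ∑ N0 ∈ iv (K - m) M0, β * 4 ^ m :=
          sum_le_sum fun _ _ => sum_le_sum fun _ _ => sum_le_sum fun _ _ => sum_le_sum fun _ _ =>
            hcard _ _ _
      _ = (2 ^ (K - m) * 2 ^ (m - k) * 2 ^ (K - m) * 2 ^ (K - m) : ℝ) * (β * 4 ^ m) := by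
          simp only [sum_const, card_iv, nsmul_eq_mul]
          push_cast
          ring
      _ = β * 8 ^ (K - k) * 4 ^ k := by
          have e1 : (8 : ℝ) ^ (K - k) = 2 ^ (K - m) * 2 ^ (K - m) * 2 ^ (K - m) *
              (2 ^ (m - k) * 4 ^ (m - k)) := by
            rw [e, pow_add]
            have a1 : (8 : ℝ) ^ (K - m) = 2 ^ (K - m) * 2 ^ (K - m) * 2 ^ (K - m) := by
              rw [← mul_pow, ← mul_pow]; norm_num
            have a2 : (8 : ℝ) ^ (m - k) = 2 ^ (m - k) * 4 ^ (m - k) := by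
              rw [← mul_pow]; norm_num
            rw [a1, a2]
          have e2 : (4 : ℝ) ^ m = 4 ^ (m - k) * 4 ^ k := by
            rw [← pow_add]; congr 1; omega
          rw [e1, e2]; ring
  calc _ ≤ ∑ M0 ∈ Ico (-(Mi + Mj + Ml) - 3) (-(Mi + Mj + Ml)), β * 8 ^ (K - k) * 4 ^ k :=
        sum_le_sum fun M0 _ => h1 M0
    _ = 3 * β * 8 ^ (K - k) * 4 ^ k := by
        rw [sum_const, Int.card_Ico, nsmul_eq_mul]
        have : (-(Mi + Mj + Ml) - (-(Mi + Mj + Ml) - 3)).toNat = 3 := by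
          have : -(Mi + Mj + Ml) - (-(Mi + Mj + Ml) - 3) = 3 := by ring
          rw [this]; rfl
        rw [this]; push_cast; ring

/-- **Measure lemma.** -/
theorem meas (bad : ℕ → ℤ → ℤ → ℤ → Finset (ℤ × ℤ)) {β : ℝ} {K k : ℕ} (hk : k ≤ K)
    (hsub : ∀ m ≤ K, ∀ n0 ni nj, bad m n0 ni nj ⊆ iv m n0 ×ˢ iv m ni)
    (hcard : ∀ m ≤ K, ∀ n0 ni nj, ((bad m n0 ni nj).card : ℝ) ≤ β * 4 ^ m) (Mi Mj Ml : ℤ) {o : ℤ}
    (ho : |o| ≤ 1) :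
    ∑ ni ∈ iv (K - k) Mi, ∑ nj ∈ iv (K - k) Mj, ∑ nl ∈ iv (K - k) Ml,
      ((Us K bad k (o - 2 - ni - nj - nl) ni nj).card : ℝ) ≤
        3 * β * ((K - k : ℕ) + 1) * 8 ^ (K - k) * 4 ^ k := by
  calc _ ≤ ∑ ni ∈ iv (K - k) Mi, ∑ nj ∈ iv (K - k) Mj, ∑ nl ∈ iv (K - k) Ml,
        ∑ m ∈ Icc k K, ((bq bad k m (o - 2 - ni - nj - nl) ni nj).card : ℝ) :=
        sum_le_sum fun _ _ => sum_le_sum fun _ _ => sum_le_sum fun _ _ => card_Us_le _ _ _ _ _ _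
    _ = ∑ m ∈ Icc k K, ∑ ni ∈ iv (K - k) Mi, ∑ nj ∈ iv (K - k) Mj, ∑ nl ∈ iv (K - k) Ml,
        ((bq bad k m (o - 2 - ni - nj - nl) ni nj).card : ℝ) := by
        rw [sum_comm (s := Icc k K)]
        refine sum_congr rfl fun ni _ => ?_
        rw [sum_comm (s := Icc k K)]
        refine sum_congr rfl fun nj _ => ?_
        rw [sum_comm (s := Icc k K)]
    _ ≤ ∑ m ∈ Icc k K, 3 * β * 8 ^ (K - k) * 4 ^ k := by
        refine sum_le_sum fun m hm => ?_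
        rw [mem_Icc] at hm
        exact meas_one bad hm.1 hm.2 (hsub m hm.2) (hcard m hm.2) ho
    _ = _ := by
        rw [sum_const, Nat.card_Icc, nsmul_eq_mul]
        have : K + 1 - k = (K - k) + 1 := by omega
        rw [this]; push_cast; ring

/-- **Measure lemma, with a power** `γ ∈ [0, 1]`. -/
theorem meas_rpow (bad : ℕ → ℤ → ℤ → ℤ → Finset (ℤ × ℤ)) {β : ℝ} {K k : ℕ} (hk : k ≤ K)
    (hsub : ∀ m ≤ K, ∀ n0 ni nj, bad m n0 ni nj ⊆ iv m n0 ×ˢ iv m ni)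
    (hcard : ∀ m ≤ K, ∀ n0 ni nj, ((bad m n0 ni nj).card : ℝ) ≤ β * 4 ^ m) (Mi Mj Ml : ℤ) {o : ℤ}
    (ho : |o| ≤ 1) {γ : ℝ} (h0 : 0 ≤ γ) (h1 : γ ≤ 1) :
    ∑ ni ∈ iv (K - k) Mi, ∑ nj ∈ iv (K - k) Mj, ∑ nl ∈ iv (K - k) Ml,
      (((Us K bad k (o - 2 - ni - nj - nl) ni nj).card : ℝ) / 4 ^ k) ^ γ ≤
        8 ^ (K - k) * (3 * β * ((K - k : ℕ) + 1)) ^ γ := by
  set n := K - k with hn
  set T : Finset (ℤ × ℤ × ℤ) := iv n Mi ×ˢ iv n Mj ×ˢ iv n Ml with hT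
  set f : ℤ × ℤ × ℤ → ℝ := fun p =>
    ((Us K bad k (o - 2 - p.1 - p.2.1 - p.2.2) p.1 p.2.1).card : ℝ) / 4 ^ k with hf
  have hTne : T.Nonempty := by
    rw [hT]
    refine Finset.Nonempty.product ?_ (Finset.Nonempty.product ?_ ?_) <;>
    · refine card_pos.mp ?_
      rw [card_iv]; positivity
  have hTc : (T.card : ℝ) = 8 ^ n := by
    rw [hT, card_product, card_product, card_iv, card_iv, card_iv]
    push_cast
    rw [← mul_pow, ← mul_pow]; norm_num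
  have hf0 : ∀ p ∈ T, 0 ≤ f p := fun p _ => div_nonneg (Nat.cast_nonneg _) (by positivity)
  have hJ := H315.avg_rpow_le hTne hf0 h0 h1
  have hm := meas bad hk hsub hcard Mi Mj Ml ho
  have hsum : ∀ g : ℤ × ℤ × ℤ → ℝ, ∑ p ∈ T, g p = ∑ ni ∈ iv n Mi, ∑ nj ∈ iv n Mj,
      ∑ nl ∈ iv n Ml, g (ni, nj, nl) := by
    intro g
    rw [hT, sum_product]
    exact sum_congr rfl fun _ _ => sum_product _ _ _
  have h8 : (0 : ℝ) < 8 ^ n := by positivity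
  have h4 : (0 : ℝ) < 4 ^ k := by positivity
  have hS : ∑ p ∈ T, f p ≤ 8 ^ n * (3 * β * ((n : ℕ) + 1)) := by
    have e1 : ∑ p ∈ T, f p = (∑ ni ∈ iv n Mi, ∑ nj ∈ iv n Mj, ∑ nl ∈ iv n Ml,
        ((Us K bad k (o - 2 - ni - nj - nl) ni nj).card : ℝ)) / 4 ^ k := by
      rw [hsum]
      simp only [hf, sum_div]
    rw [e1, div_le_iff₀ h4]
    refine hm.trans_eq ?_
    ring
  have hav : H315.avg T f ≤ 3 * β * ((n : ℕ) + 1) := by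
    unfold H315.avg
    rw [hTc, inv_mul_le_iff₀ h8]
    exact hS
  have hav0 : 0 ≤ H315.avg T f := H315.avg_nonneg hf0
  have h5 : ∑ p ∈ T, f p ^ γ ≤ 8 ^ n * (3 * β * ((n : ℕ) + 1)) ^ γ := by
    have h6 := hJ.trans (Real.rpow_le_rpow hav0 hav h0)
    unfold H315.avg at h6
    rw [hTc, inv_mul_le_iff₀ h8] at h6
    exact h6
  rw [hsum] at h5
  exact h5

section perms

variable (bad : ℕ → ℤ → ℤ → ℤ → Finset (ℤ × ℤ)) {β : ℝ} {K k : ℕ} (hk : k ≤ K)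
  (hsub : ∀ m ≤ K, ∀ n0 ni nj, bad m n0 ni nj ⊆ iv m n0 ×ˢ iv m ni)
  (hcard : ∀ m ≤ K, ∀ n0 ni nj, ((bad m n0 ni nj).card : ℝ) ≤ β * 4 ^ m) (M1 M2 M3 : ℤ) {o : ℤ}
  (ho : |o| ≤ 1) {γ : ℝ} (h0 : 0 ≤ γ) (h1 : γ ≤ 1)
include hk hsub hcard ho h0 h1

/-- pairs `(x0, x1)` on the face `(x0, x1, x2)` -/
theorem meas_rpow_12 :
    ∑ n1 ∈ iv (K - k) M1, ∑ n2 ∈ iv (K - k) M2, ∑ n3 ∈ iv (K - k) M3,
      (((Us K bad k (o - 2 - n1 - n2 - n3) n1 n2).card : ℝ) / 4 ^ k) ^ γ ≤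
        8 ^ (K - k) * (3 * β * ((K - k : ℕ) + 1)) ^ γ :=
  meas_rpow bad hk hsub hcard M1 M2 M3 ho h0 h1

/-- pairs `(x0, x1)` on the face `(x0, x1, x3)` -/
theorem meas_rpow_13 :
    ∑ n1 ∈ iv (K - k) M1, ∑ n2 ∈ iv (K - k) M2, ∑ n3 ∈ iv (K - k) M3,
      (((Us K bad k (o - 2 - n1 - n2 - n3) n1 n3).card : ℝ) / 4 ^ k) ^ γ ≤
        8 ^ (K - k) * (3 * β * ((K - k : ℕ) + 1)) ^ γ := by
  refine le_trans (le_of_eq ?_) (meas_rpow bad hk hsub hcard M1 M3 M2 ho h0 h1)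
  refine sum_congr rfl fun n1 _ => ?_
  rw [sum_comm]
  refine sum_congr rfl fun n3 _ => sum_congr rfl fun n2 _ => ?_
  rw [show o - 2 - n1 - n2 - n3 = o - 2 - n1 - n3 - n2 by ring]

/-- pairs `(x0, x2)` on the face `(x0, x1, x2)` -/
theorem meas_rpow_21 :
    ∑ n1 ∈ iv (K - k) M1, ∑ n2 ∈ iv (K - k) M2, ∑ n3 ∈ iv (K - k) M3,
      (((Us K bad k (o - 2 - n1 - n2 - n3) n2 n1).card : ℝ) / 4 ^ k) ^ γ ≤
        8 ^ (K - k) * (3 * β * ((K - k : ℕ) + 1)) ^ γ := by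
  refine le_trans (le_of_eq ?_) (meas_rpow bad hk hsub hcard M2 M1 M3 ho h0 h1)
  rw [sum_comm]
  refine sum_congr rfl fun n2 _ => sum_congr rfl fun n1 _ => sum_congr rfl fun n3 _ => ?_
  rw [show o - 2 - n1 - n2 - n3 = o - 2 - n2 - n1 - n3 by ring]

/-- pairs `(x0, x2)` on the face `(x0, x2, x3)` -/
theorem meas_rpow_23 :
    ∑ n1 ∈ iv (K - k) M1, ∑ n2 ∈ iv (K - k) M2, ∑ n3 ∈ iv (K - k) M3,
      (((Us K bad k (o - 2 - n1 - n2 - n3) n2 n3).card : ℝ) / 4 ^ k) ^ γ ≤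
        8 ^ (K - k) * (3 * β * ((K - k : ℕ) + 1)) ^ γ := by
  refine le_trans (le_of_eq ?_) (meas_rpow bad hk hsub hcard M2 M3 M1 ho h0 h1)
  rw [sum_comm]
  refine sum_congr rfl fun n2 _ => ?_
  rw [sum_comm]
  refine sum_congr rfl fun n3 _ => sum_congr rfl fun n1 _ => ?_
  rw [show o - 2 - n1 - n2 - n3 = o - 2 - n2 - n3 - n1 by ring]

/-- pairs `(x0, x3)` on the face `(x0, x1, x3)` -/
theorem meas_rpow_31 :
    ∑ n1 ∈ iv (K - k) M1, ∑ n2 ∈ iv (K - k) M2, ∑ n3 ∈ iv (K - k) M3,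
      (((Us K bad k (o - 2 - n1 - n2 - n3) n3 n1).card : ℝ) / 4 ^ k) ^ γ ≤
        8 ^ (K - k) * (3 * β * ((K - k : ℕ) + 1)) ^ γ := by
  refine le_trans (le_of_eq ?_) (meas_rpow bad hk hsub hcard M3 M1 M2 ho h0 h1)
  rw [sum_congr rfl fun n1 _ => sum_comm (s := iv (K - k) M2) (t := iv (K - k) M3), sum_comm]
  refine sum_congr rfl fun n3 _ => sum_congr rfl fun n1 _ => sum_congr rfl fun n2 _ => ?_
  rw [show o - 2 - n1 - n2 - n3 = o - 2 - n3 - n1 - n2 by ring]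

/-- pairs `(x0, x3)` on the face `(x0, x2, x3)` -/
theorem meas_rpow_32 :
    ∑ n1 ∈ iv (K - k) M1, ∑ n2 ∈ iv (K - k) M2, ∑ n3 ∈ iv (K - k) M3,
      (((Us K bad k (o - 2 - n1 - n2 - n3) n3 n2).card : ℝ) / 4 ^ k) ^ γ ≤
        8 ^ (K - k) * (3 * β * ((K - k : ℕ) + 1)) ^ γ := by
  refine le_trans (le_of_eq ?_) (meas_rpow bad hk hsub hcard M3 M2 M1 ho h0 h1)
  rw [sum_congr rfl fun n1 _ => sum_comm (s := iv (K - k) M2) (t := iv (K - k) M3), sum_comm]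
  refine sum_congr rfl fun n3 _ => ?_
  rw [sum_comm]
  refine sum_congr rfl fun n2 _ => sum_congr rfl fun n1 _ => ?_
  rw [show o - 2 - n1 - n2 - n3 = o - 2 - n3 - n2 - n1 by ring]

end perms

end

end Vale.Agent.P141.PL.H990
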