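import Vale.Agent.P141.PL.H317.CostDefs
import Vale.Agent.P141.PL.H990.Meas

/-!
# P141, cost theorem: (M1) regrouping over `x₀`, (M2) main part

The sum over the boxes of a face cube is a sum over `x₀` of sums over planes; the trilinear
estimate with caps is applied for each `x₀`, then Cauchy–Schwarz in `x₀`.
-/

namespace Vale.Agent.P141.PL.H990

noncomputable section

open Finset
open Vale.Agent.P141.PL.H317 (cbs i0 Cap Mv Star)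

/-- The planes of a point `x₀` are admissible. -/
theorem pl_of (o x0 : ℤ) (ho : |o| ≤ 1) : H588.Pl (fun k => o - 2 - ix k x0) := by
  intro k
  have h := ix_ix k 1 x0
  have h2 : ix 1 (ix k x0) = ix k x0 / 2 := by unfold ix; norm_num
  rw [h2] at h
  rw [abs_le] at ho
  simp only
  rw [← h]
  constructor <;> omega

/-- The three root intervals of `x₀`. -/
def X0 (M : Pt) : Finset ℤ := Ico (-(M.1 + M.2.1 + M.2.2) - 3) (-(M.1 + M.2.1 + M.2.2))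

theorem card_X0 (M : Pt) : (X0 M).card = 3 := by
  unfold X0
  rw [Int.card_Ico]
  have : (-(M.1 + M.2.1 + M.2.2) - (-(M.1 + M.2.1 + M.2.2) - 3)) = 3 := by ring
  rw [this]; rfl

theorem mem_cbs {N : ℕ} {R : Pt} {k : ℕ} {m : Pt} : m ∈ cbs N R k ↔
    m.1 ∈ iv (N - k) R.1 ∧ m.2.1 ∈ iv (N - k) R.2.1 ∧ m.2.2 ∈ iv (N - k) R.2.2 := by
  unfold H317.cbs
  rw [mem_product, mem_product]

/-- The root intervals of `x₀` cover the fourth intervals of all boxes. -/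
theorem fourth_sub {K k : ℕ} (hk : k ≤ K) {M : Pt} {o : ℤ} (ho : |o| ≤ 1) {m : Pt}
    (hm : m ∈ cbs K M k) {x0 : ℤ} (hx : x0 ∈ iv k (i0 o m)) : ix K x0 ∈ X0 M := by
  rw [mem_cbs] at hm
  obtain ⟨M0, h1, h2⟩ := fourth_mem ho hm.1 hm.2.1 hm.2.2
  rw [mem_iv] at hx h2
  have e : K = k + (K - k) := by omega
  have e2 : o - 2 - m.1 - m.2.1 - m.2.2 = i0 o m := by unfold H317.i0; ring
  rw [e2] at h2
  have : ix K x0 = M0 := by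
    rw [e, ← ix_ix, hx]
    exact h2
  rw [this]
  exact h1

/-- **(M1)** regrouping over `x₀`, one scale. -/
theorem regroup_one {K k : ℕ} (hk : k ≤ K) (M : Pt) {o : ℤ} (ho : |o| ≤ 1) (φ : ℤ → Pt → ℝ) :
    ∑ m ∈ cbs K M k, ∑ x0 ∈ iv k (i0 o m), φ x0 m =
      ∑ t ∈ X0 M, ∑ x0 ∈ iv K t,
        ∑ m ∈ cbs K M k with m.1 + m.2.1 + m.2.2 = o - 2 - ix k x0, φ x0 m := by
  have hdis : Set.PairwiseDisjoint (X0 M : Set ℤ) (fun t => iv K t) := by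
    intro a _ b _ hab
    rw [Function.onFun, disjoint_left]
    intro x hx hx'
    rw [mem_iv] at hx hx'
    exact hab (hx.symm.trans hx')
  rw [← sum_biUnion hdis]
  simp only [sum_filter]
  rw [sum_comm]
  refine sum_congr rfl fun m hm => ?_
  rw [← sum_filter]
  refine sum_congr ?_ fun _ _ => rfl
  ext x0
  rw [mem_filter, mem_biUnion]
  constructor
  · intro hx
    refine ⟨⟨ix K x0, fourth_sub hk ho hm hx, self_mem_iv K x0⟩, ?_⟩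
    rw [mem_iv] at hx
    rw [hx]; unfold H317.i0; ring
  · rintro ⟨_, h⟩
    rw [mem_iv]
    unfold H317.i0
    linarith

/-- **(M1)** regrouping over `x₀`. -/
theorem regroup {K : ℕ} (M : Pt) {o : ℤ} (ho : |o| ≤ 1) (φ : ℕ → ℤ → Pt → ℝ) :
    ∑ k ∈ Icc 1 K, (2 ^ k : ℝ)⁻¹ * ∑ m ∈ cbs K M k, ∑ x0 ∈ iv k (i0 o m), φ k x0 m =
      ∑ t ∈ X0 M, ∑ x0 ∈ iv K t, ∑ k ∈ Icc 1 K, (2 ^ k : ℝ)⁻¹ *
        ∑ m ∈ cbs K M k with m.1 + m.2.1 + m.2.2 = o - 2 - ix k x0, φ k x0 m := by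
  have h1 : ∀ k ∈ Icc 1 K, (2 ^ k : ℝ)⁻¹ * ∑ m ∈ cbs K M k, ∑ x0 ∈ iv k (i0 o m), φ k x0 m =
      ∑ t ∈ X0 M, ∑ x0 ∈ iv K t, (2 ^ k : ℝ)⁻¹ *
        ∑ m ∈ cbs K M k with m.1 + m.2.1 + m.2.2 = o - 2 - ix k x0, φ k x0 m := by
    intro k hk
    rw [regroup_one (mem_Icc.mp hk).2 M ho, mul_sum]
    refine sum_congr rfl fun t _ => ?_
    rw [mul_sum]
  rw [sum_congr rfl h1, sum_comm]
  refine sum_congr rfl fun t _ => ?_
  rw [sum_comm]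

theorem Mv.nonneg {N : ℕ} {R S : ℤ} {J : ℕ} {D : ℝ} {F : ℕ → ℤ → ℤ → ℝ} (h : Mv N R S J D F) :
    0 ≤ D :=
  (sum_nonneg fun _ _ => sum_nonneg fun _ _ => sq_nonneg _).trans (h.1 N le_rfl)

/-- Cauchy–Schwarz in the frozen variable. -/
theorem sum_sqrt_le {ι : Type*} (T : Finset ι) {f g : ι → ℝ} (hf : ∀ t ∈ T, 0 ≤ f t)
    (hg : ∀ t ∈ T, 0 ≤ g t) {E F : ℝ} (hE : ∑ t ∈ T, f t ≤ E) (hF : ∑ t ∈ T, g t ≤ F) :
    ∑ t ∈ T, √(f t * g t) ≤ √(E * F) := by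
  have h1 : ∑ t ∈ T, √(f t * g t) = ∑ t ∈ T, √(f t) * √(g t) :=
    sum_congr rfl fun t ht => Real.sqrt_mul (hf t ht) _
  rw [h1]
  refine Real.le_sqrt_of_sq_le ?_
  refine (sum_mul_sq_le_sq_mul_sq T (fun t => √(f t)) fun t => √(g t)).trans ?_
  have h2 : ∑ t ∈ T, √(f t) ^ 2 = ∑ t ∈ T, f t := sum_congr rfl fun t ht => Real.sq_sqrt (hf t ht)
  have h3 : ∑ t ∈ T, √(g t) ^ 2 = ∑ t ∈ T, g t := sum_congr rfl fun t ht => Real.sq_sqrt (hg t ht)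
  rw [h2, h3]
  exact mul_le_mul hE hF (sum_nonneg hg) ((sum_nonneg hf).trans hE)

/-- **(M2)** The main part: caps and movement for every `x₀`, sums over `x₀` of the movements. -/
theorem main_part {P : ℕ → ℝ} (hS : Star P) {K J : ℕ} (hKJ : K < 2 ^ J) (hP : 0 ≤ P J) {o : ℤ}
    (ho : |o| ≤ 1) (M : Pt) (A B C : ℤ → ℕ → ℤ → ℤ → ℝ) {cA cB cC EA EB EC : ℝ} (hcA : 0 ≤ cA)
    (hcB : 0 ≤ cB) (hcC : 0 ≤ cC) (dA dB dC : ℤ → ℝ)
    (hcap : ∀ k ∈ Icc 1 K, ∀ x0 : ℤ, ∀ m ∈ cbs K M k, Cap k m.1 m.2.1 cA (A x0 k) ∧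
      Cap k m.2.1 m.2.2 cB (B x0 k) ∧ Cap k m.1 m.2.2 cC (C x0 k))
    (hA : ∀ x0, Mv K M.1 M.2.1 J (dA x0) (A x0)) (hB : ∀ x0, Mv K M.2.1 M.2.2 J (dB x0) (B x0))
    (hC : ∀ x0, Mv K M.1 M.2.2 J (dC x0) (C x0))
    (hEA : ∑ t ∈ X0 M, ∑ x0 ∈ iv K t, dA x0 ≤ EA) (hEB : ∑ t ∈ X0 M, ∑ x0 ∈ iv K t, dB x0 ≤ EB)
    (hEC : ∑ t ∈ X0 M, ∑ x0 ∈ iv K t, dC x0 ≤ EC) :
    ∑ k ∈ Icc 1 K, (2 ^ k : ℝ)⁻¹ * ∑ m ∈ cbs K M k, ∑ x0 ∈ iv k (i0 o m),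
      |tri k m (A x0 k) (B x0 k) (C x0 k)| ≤
        P J * (cA * √(EB * EC) + cB * √(EA * EC) + cC * √(EA * EB)) := by
  rw [regroup M ho (fun k x0 m => |tri k m (A x0 k) (B x0 k) (C x0 k)|)]
  have h1 : ∀ t ∈ X0 M, ∀ x0 ∈ iv K t, ∑ k ∈ Icc 1 K, (2 ^ k : ℝ)⁻¹ *
      ∑ m ∈ cbs K M k with m.1 + m.2.1 + m.2.2 = o - 2 - ix k x0,
        |tri k m (A x0 k) (B x0 k) (C x0 k)| ≤
      P J * (cA * √(dB x0 * dC x0) + cB * √(dA x0 * dC x0) + cC * √(dA x0 * dB x0)) := by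
    intro t _ x0 _
    exact hS K J M (fun k => o - 2 - ix k x0) (pl_of o x0 ho) hKJ (A x0) (B x0) (C x0) cA cB cC
      (dA x0) (dB x0) (dC x0) hcA hcB hcC (fun k hk m hm => hcap k hk x0 m hm) (hA x0) (hB x0)
      (hC x0)
  refine (sum_le_sum fun t ht => sum_le_sum fun x0 hx => h1 t ht x0 hx).trans ?_
  have hsum : ∀ f : ℤ → ℝ, ∑ t ∈ X0 M, ∑ x0 ∈ iv K t, f x0 =
      ∑ q ∈ (X0 M).sigma fun t => iv K t, f q.2 := fun f => by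
    rw [sum_sigma]
  rw [hsum] at hEA hEB hEC
  rw [hsum (fun x0 =>
    P J * (cA * √(dB x0 * dC x0) + cB * √(dA x0 * dC x0) + cC * √(dA x0 * dB x0))), ← mul_sum,
    sum_add_distrib, sum_add_distrib, ← mul_sum, ← mul_sum, ← mul_sum]
  have h2 := sum_sqrt_le ((X0 M).sigma fun t => iv K t) (f := fun q => dB q.2)
    (g := fun q => dC q.2) (fun q _ => Mv.nonneg (hB q.2)) (fun q _ => Mv.nonneg (hC q.2)) hEB hEC
  have h3 := sum_sqrt_le ((X0 M).sigma fun t => iv K t) (f := fun q => dA q.2)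
    (g := fun q => dC q.2) (fun q _ => Mv.nonneg (hA q.2)) (fun q _ => Mv.nonneg (hC q.2)) hEA hEC
  have h4 := sum_sqrt_le ((X0 M).sigma fun t => iv K t) (f := fun q => dA q.2)
    (g := fun q => dB q.2) (fun q _ => Mv.nonneg (hA q.2)) (fun q _ => Mv.nonneg (hB q.2)) hEA hEB
  gcongr

end

end Vale.Agent.P141.PL.H990
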