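import Vale.Agent.P141.PL.H317.CostDefs
import Vale.Agent.P141.PL.H990.Meas

/-! The kill sets of the cost theorem. -/

namespace Vale.Agent.P141.PL.H990

noncomputable section

open Finset
open Vale.Agent.P141.PL.H315 (A2)

/-- The own edge `a`, a function of the last two coordinates, has on a square of some scale between
`k` and `K` an average which is more than four times the average on the square of scale `K`. -/
def stp (a : ℤ × ℤ → ℝ) (K k : ℕ) (p : Pt) : Prop :=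
  ∃ m, k ≤ m ∧ m ≤ K ∧ 4 * A2 K a p.2.1 p.2.2 < A2 m a p.2.1 p.2.2

/-- The kill set of a face whose first coordinate is `x₀`: the own edge is stopped, or one of the
two pairs which contain `x₀` is bad at some scale between `k` and `K`. The arguments of a bad
family: scale, index of `x₀`, index of the pair variable, index of the third variable. -/
def kR (K : ℕ) (a : ℤ × ℤ → ℝ) (b1 b2 : ℕ → ℤ → ℤ → ℤ → Finset (ℤ × ℤ)) (k : ℕ) (p : Pt) : Prop :=
  stp a K k p ∨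
    (∃ m, k ≤ m ∧ m ≤ K ∧ (p.1, p.2.1) ∈ b1 m (ix m p.1) (ix m p.2.1) (ix m p.2.2)) ∨
    ∃ m, k ≤ m ∧ m ≤ K ∧ (p.1, p.2.2) ∈ b2 m (ix m p.1) (ix m p.2.2) (ix m p.2.1)

/-- The kill sets increase when the scale decreases. -/
theorem kR_mono (K : ℕ) (a : ℤ × ℤ → ℝ) (b1 b2 : ℕ → ℤ → ℤ → ℤ → Finset (ℤ × ℤ)) :
    ∀ k l p, k ≤ l → kR K a b1 b2 l p → kR K a b1 b2 k p := by
  intro k l p hkl h
  rcases h with ⟨m, h1, h2, h3⟩ | ⟨m, h1, h2, h3⟩ | ⟨m, h1, h2, h3⟩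
  · exact Or.inl ⟨m, hkl.trans h1, h2, h3⟩
  · exact Or.inr (Or.inl ⟨m, hkl.trans h1, h2, h3⟩)
  · exact Or.inr (Or.inr ⟨m, hkl.trans h1, h2, h3⟩)

theorem ix_of_mem {k m : ℕ} (hkm : k ≤ m) {x n : ℤ} (hx : x ∈ iv k n) :
    ix m x = n / 2 ^ (m - k) := by
  rw [mem_iv] at hx
  have e : m = k + (m - k) := by omega
  rw [e, ← ix_ix, hx, ← e]
  rfl

/-- On a cube which is not stopped the kill set is the union of the two sets of bad pairs. -/
theorem kR_iff {K k : ℕ} {a : ℤ × ℤ → ℝ} {b1 b2 : ℕ → ℤ → ℤ → ℤ → Finset (ℤ × ℤ)} {n0 n1 n2 : ℤ}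
    {x y z : ℤ} (hx : x ∈ iv k n0) (hy : y ∈ iv k n1) (hz : z ∈ iv k n2)
    (hst : ¬ stp a K k (x, y, z)) :
    kR K a b1 b2 k (x, y, z) ↔ (x, y) ∈ Us K b1 k n0 n1 n2 ∨ (x, z) ∈ Us K b2 k n0 n2 n1 := by
  rw [mem_Us, mem_Us]
  have hx' := mem_iv.mp hx
  have hy' := mem_iv.mp hy
  have hz' := mem_iv.mp hz
  unfold kR
  constructor
  · rintro (h | ⟨m, h1, h2, h3⟩ | ⟨m, h1, h2, h3⟩)
    · exact absurd h hst
    · refine Or.inl ⟨⟨hx', hy'⟩, m, h1, h2, ?_⟩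
      rw [← ix_of_mem h1 hx, ← ix_of_mem h1 hy, ← ix_of_mem h1 hz]
      exact h3
    · refine Or.inr ⟨⟨hx', hz'⟩, m, h1, h2, ?_⟩
      rw [← ix_of_mem h1 hx, ← ix_of_mem h1 hy, ← ix_of_mem h1 hz]
      exact h3
  · rintro (⟨_, m, h1, h2, h3⟩ | ⟨_, m, h1, h2, h3⟩)
    · refine Or.inr (Or.inl ⟨m, h1, h2, ?_⟩)
      simp only
      rw [ix_of_mem h1 hx, ix_of_mem h1 hy, ix_of_mem h1 hz]
      exact h3
    · refine Or.inr (Or.inr ⟨m, h1, h2, ?_⟩)
      simp only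
      rw [ix_of_mem h1 hx, ix_of_mem h1 hy, ix_of_mem h1 hz]
      exact h3

/-- The own bad sets of scale `k` are killed. -/
theorem kR_of_bad {K k : ℕ} (hk : k ≤ K) {a : ℤ × ℤ → ℝ}
    {b1 b2 : ℕ → ℤ → ℤ → ℤ → Finset (ℤ × ℤ)} {n0 n1 n2 : ℤ}
    {x y z : ℤ} (hx : x ∈ iv k n0) (hy : y ∈ iv k n1) (hz : z ∈ iv k n2)
    (h : (x, y) ∈ b1 k n0 n1 n2 ∨ (x, z) ∈ b2 k n0 n2 n1) : kR K a b1 b2 k (x, y, z) := by
  rw [mem_iv] at hx hy hz
  rcases h with h | h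
  · refine Or.inr (Or.inl ⟨k, le_rfl, hk, ?_⟩)
    simp only
    rw [hx, hy, hz]
    exact h
  · refine Or.inr (Or.inr ⟨k, le_rfl, hk, ?_⟩)
    simp only
    rw [hx, hy, hz]
    exact h

/-- If some point of the square is killed because of its own edge, all points are. -/
theorem stp_congr {a : ℤ × ℤ → ℝ} {K k : ℕ} (hk : k ≤ K) {x x' y y' z z' : ℤ}
    (hy : ix k y = ix k y') (hz : ix k z = ix k z') :
    stp a K k (x, y, z) ↔ stp a K k (x', y', z') := by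
  have key : ∀ m, k ≤ m → A2 m a y z = A2 m a y' z' := by
    intro m hm
    have h1 : ix m y = ix m y' := by
      have e : m = k + (m - k) := by omega
      rw [e, ← ix_ix, hy, ix_ix]
    have h2 : ix m z = ix m z' := by
      have e : m = k + (m - k) := by omega
      rw [e, ← ix_ix, hz, ix_ix]
    refine A2_congr a ?_ ?_
    · exact H315.mem_iv.mpr h1
    · exact H315.mem_iv.mpr h2
  unfold stp
  simp only
  constructor
  · rintro ⟨m, h1, h2, h3⟩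
    refine ⟨m, h1, h2, ?_⟩
    rw [← key m h1, ← key K hk]
    exact h3
  · rintro ⟨m, h1, h2, h3⟩
    refine ⟨m, h1, h2, ?_⟩
    rw [key m h1, key K hk]
    exact h3

end

end Vale.Agent.P141.PL.H990
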