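import Vale.Agent.P141.PL.Defs

/-! The sum of one error term over all nodes below a root: the algebra of the exponents. -/

namespace Vale.Agent.P141.PL.H990

noncomputable section

open Finset

theorem rpow_sq_half {x a : ℝ} (hx : 0 ≤ x) : (x ^ 2) ^ (a / 2) = x ^ a := by
  rw [← Real.rpow_natCast x 2, ← Real.rpow_mul hx]
  congr 1
  push_cast
  ring

/-- The algebra of one error term. -/
theorem err_term {e δ Λ tD tP MD MP MQ v : ℝ} (he0 : 0 < e) (he1 : e ≤ 1) (hΛ : 0 ≤ Λ)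
    (htD : 0 < tD) (htP : 0 < tP) (hMP : 0 < MP) (hMQ : 0 < MQ) (hv : 0 ≤ v) :
    96 * (δ * ((2 * tD) ^ (1 - e) * MD ^ e)) *
      ((4 * Λ * tP ^ 2) * (v * (Λ * MQ ^ 2))) ^ ((1 - e) / 2) *
      ((Λ * MP ^ 2) * (Λ * MQ ^ 2)) ^ (e / 2) =
    96 * δ * (2 ^ (1 - e) * 2 ^ (1 - e)) * (Λ * (tD ^ (1 - e) * MD ^ e) * (tP ^ (1 - e) * MP ^ e)
      * MQ) * v ^ ((1 - e) / 2) := by
  have h1 : 0 ≤ 1 - e := by linarith
  have e1 : ((4 * Λ * tP ^ 2) * (v * (Λ * MQ ^ 2))) = (2 * (Λ * (tP * MQ))) ^ 2 * v := by ring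
  have e2 : ((Λ * MP ^ 2) * (Λ * MQ ^ 2)) = (Λ * (MP * MQ)) ^ 2 := by ring
  have hP : 0 ≤ 2 * (Λ * (tP * MQ)) := by positivity
  have hQ : 0 ≤ Λ * (MP * MQ) := by positivity
  rw [e1, e2, Real.mul_rpow (by positivity) hv, rpow_sq_half hP, rpow_sq_half hQ,
    Real.mul_rpow (by norm_num) htD.le, Real.mul_rpow (by norm_num) (by positivity),
    Real.mul_rpow hΛ (by positivity), Real.mul_rpow htP.le hMQ.le, Real.mul_rpow hΛ (by positivity),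
    Real.mul_rpow hMP.le hMQ.le]
  have e3 : Λ ^ (1 - e) * Λ ^ e = Λ := by
    rw [← Real.rpow_add_of_nonneg hΛ h1 he0.le, sub_add_cancel, Real.rpow_one]
  have e4 : MQ ^ (1 - e) * MQ ^ e = MQ := by
    rw [← Real.rpow_add_of_nonneg hMQ.le h1 he0.le, sub_add_cancel, Real.rpow_one]
  calc 96 * (δ * (2 ^ (1 - e) * tD ^ (1 - e) * MD ^ e)) *
        (2 ^ (1 - e) * (Λ ^ (1 - e) * (tP ^ (1 - e) * MQ ^ (1 - e))) * v ^ ((1 - e) / 2)) *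
        (Λ ^ e * (MP ^ e * MQ ^ e))
      = 96 * δ * (2 ^ (1 - e) * 2 ^ (1 - e)) * ((Λ ^ (1 - e) * Λ ^ e) *
        (tD ^ (1 - e) * MD ^ e) * (tP ^ (1 - e) * MP ^ e) * (MQ ^ (1 - e) * MQ ^ e)) *
        v ^ ((1 - e) / 2) := by ring
    _ = _ := by rw [e3, e4]

/-- The sum over all nodes of one error term. -/
theorem err_sum {K : ℕ} {e δ Λ θ tD tP tQ MD MP MQ : ℝ} (he0 : 0 < e) (he1 : e ≤ 1)
    (hδ : 0 ≤ δ) (hΛ : 0 ≤ Λ) (hθ : 0 < θ) (htD : 0 < tD) (htP : 0 < tP) (htQ : 0 < tQ)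
    (hMD : 0 < MD) (hMP : 0 < MP) (hMQ : 0 < MQ) (u : ℕ → ℤ → ℤ → ℤ → ℝ)
    (hu0 : ∀ k n1 n2 n3, 0 ≤ u k n1 n2 n3) (M1 M2 M3 : ℤ)
    (hu : ∀ k ≤ K, ∑ n1 ∈ iv (K - k) M1, ∑ n2 ∈ iv (K - k) M2, ∑ n3 ∈ iv (K - k) M3,
      (u k n1 n2 n3) ^ ((1 - e) / 2) ≤
        8 ^ (K - k) * (3 * (2 * (θ * (tQ / MQ) ^ 2)) * ((K - k : ℕ) + 1)) ^ ((1 - e) / 2)) :
    ∑ k ∈ range (K + 1), (2 ^ k : ℝ)⁻¹ * ∑ n1 ∈ iv (K - k) M1, ∑ n2 ∈ iv (K - k) M2,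
      ∑ n3 ∈ iv (K - k) M3, 16 ^ k * (96 * (δ * ((2 * tD) ^ (1 - e) * MD ^ e)) *
        ((4 * Λ * tP ^ 2) * (u k n1 n2 n3 * (Λ * MQ ^ 2))) ^ ((1 - e) / 2) *
        ((Λ * MP ^ 2) * (Λ * MQ ^ 2)) ^ (e / 2)) ≤
    8 ^ K * ((K + 1) * (384 * Λ * δ) * ((tD * tP * tQ) ^ (1 - e) * (MD * MP * MQ) ^ e) *
      (6 * θ * (K + 1)) ^ ((1 - e) / 2)) := by
  have h1 : 0 ≤ 1 - e := by linarith
  have hg : 0 ≤ (1 - e) / 2 := by linarith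
  set c : ℝ := 96 * δ * (2 ^ (1 - e) * 2 ^ (1 - e)) *
    (Λ * (tD ^ (1 - e) * MD ^ e) * (tP ^ (1 - e) * MP ^ e) * MQ) with hc
  have hc0 : 0 ≤ c := by positivity
  set F : ℝ := (6 * θ * (K + 1)) ^ ((1 - e) / 2) with hF
  have hF0 : 0 ≤ F := by positivity
  have h2 : (2 : ℝ) ^ (1 - e) * 2 ^ (1 - e) ≤ 4 := by
    have h3 : (2 : ℝ) ^ (1 - e) ≤ 2 := by
      calc (2 : ℝ) ^ (1 - e) ≤ 2 ^ (1 : ℝ) :=
            Real.rpow_le_rpow_of_exponent_le (by norm_num) (by linarith)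
        _ = 2 := Real.rpow_one 2
    have h4 : (0 : ℝ) ≤ 2 ^ (1 - e) := by positivity
    nlinarith
  have hMe : MQ * (tQ / MQ) ^ (1 - e) = tQ ^ (1 - e) * MQ ^ e := by
    have e4 : MQ ^ (1 - e) * MQ ^ e = MQ := by
      rw [← Real.rpow_add_of_nonneg hMQ.le h1 he0.le, sub_add_cancel, Real.rpow_one]
    have e5 : MQ ^ (1 - e) ≠ 0 := (Real.rpow_pos_of_pos hMQ _).ne'
    rw [Real.div_rpow htQ.le hMQ.le]
    calc MQ * (tQ ^ (1 - e) / MQ ^ (1 - e)) =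
          (MQ ^ (1 - e) * MQ ^ e) * (tQ ^ (1 - e) / MQ ^ (1 - e)) := by rw [e4]
      _ = _ := by field_simp
  -- one scale
  have key : ∀ k ∈ range (K + 1), (2 ^ k : ℝ)⁻¹ * ∑ n1 ∈ iv (K - k) M1, ∑ n2 ∈ iv (K - k) M2,
      ∑ n3 ∈ iv (K - k) M3, 16 ^ k * (96 * (δ * ((2 * tD) ^ (1 - e) * MD ^ e)) *
        ((4 * Λ * tP ^ 2) * (u k n1 n2 n3 * (Λ * MQ ^ 2))) ^ ((1 - e) / 2) *
        ((Λ * MP ^ 2) * (Λ * MQ ^ 2)) ^ (e / 2)) ≤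
      8 ^ K * (c * ((tQ / MQ) ^ (1 - e) * F)) := by
    intro k hk
    have hkK : k ≤ K := by rw [mem_range] at hk; omega
    have e1 : ∑ n1 ∈ iv (K - k) M1, ∑ n2 ∈ iv (K - k) M2,
        ∑ n3 ∈ iv (K - k) M3, 16 ^ k * (96 * (δ * ((2 * tD) ^ (1 - e) * MD ^ e)) *
          ((4 * Λ * tP ^ 2) * (u k n1 n2 n3 * (Λ * MQ ^ 2))) ^ ((1 - e) / 2) *
          ((Λ * MP ^ 2) * (Λ * MQ ^ 2)) ^ (e / 2)) =
        16 ^ k * (c * ∑ n1 ∈ iv (K - k) M1, ∑ n2 ∈ iv (K - k) M2, ∑ n3 ∈ iv (K - k) M3,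
          (u k n1 n2 n3) ^ ((1 - e) / 2)) := by
      simp only [mul_sum]
      refine sum_congr rfl fun n1 _ => sum_congr rfl fun n2 _ => sum_congr rfl fun n3 _ => ?_
      rw [err_term he0 he1 hΛ htD htP hMP hMQ (hu0 k n1 n2 n3)]
    rw [e1]
    have h3 : (3 * (2 * (θ * (tQ / MQ) ^ 2)) * ((K - k : ℕ) + 1 : ℝ)) ^ ((1 - e) / 2) ≤
        (tQ / MQ) ^ (1 - e) * F := by
      have hx : 0 ≤ tQ / MQ := by positivity
      have e2 : (tQ / MQ) ^ (1 - e) * F = ((tQ / MQ) ^ 2 * (6 * θ * (K + 1))) ^ ((1 - e) / 2) := by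
        rw [Real.mul_rpow (by positivity) (by positivity), rpow_sq_half hx, hF]
      rw [e2]
      refine Real.rpow_le_rpow (by positivity) ?_ hg
      have h4 : ((K - k : ℕ) : ℝ) ≤ K := by exact_mod_cast Nat.sub_le K k
      have h5 : 0 ≤ 6 * θ * (tQ / MQ) ^ 2 := by positivity
      calc 3 * (2 * (θ * (tQ / MQ) ^ 2)) * (((K - k : ℕ) : ℝ) + 1)
          = 6 * θ * (tQ / MQ) ^ 2 * (((K - k : ℕ) : ℝ) + 1) := by ring
        _ ≤ 6 * θ * (tQ / MQ) ^ 2 * (K + 1) :=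
            mul_le_mul_of_nonneg_left (by linarith) h5
        _ = _ := by ring
    have h4 := (hu k hkK).trans (mul_le_mul_of_nonneg_left h3 (by positivity : (0:ℝ) ≤ 8 ^ (K - k)))
    have e3 : (8 : ℝ) ^ K = (2 ^ k : ℝ)⁻¹ * 16 ^ k * 8 ^ (K - k) := by
      have : (16 : ℝ) ^ k = 2 ^ k * 8 ^ k := by rw [← mul_pow]; norm_num
      have h6 : (8 : ℝ) ^ K = 8 ^ k * 8 ^ (K - k) := by rw [← pow_add]; congr 1; omega
      rw [this, h6]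
      have h7 : (2 : ℝ) ^ k ≠ 0 := by positivity
      field_simp
    calc (2 ^ k : ℝ)⁻¹ * (16 ^ k * (c * ∑ n1 ∈ iv (K - k) M1, ∑ n2 ∈ iv (K - k) M2,
          ∑ n3 ∈ iv (K - k) M3, (u k n1 n2 n3) ^ ((1 - e) / 2)))
        ≤ (2 ^ k : ℝ)⁻¹ * (16 ^ k * (c * (8 ^ (K - k) * ((tQ / MQ) ^ (1 - e) * F)))) := by
          refine mul_le_mul_of_nonneg_left ?_ (by positivity)
          refine mul_le_mul_of_nonneg_left ?_ (by positivity)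
          exact mul_le_mul_of_nonneg_left h4 hc0
      _ = _ := by rw [e3]; ring
  refine (sum_le_sum key).trans ?_
  rw [sum_const, card_range, nsmul_eq_mul]
  push_cast
  have h5 : c * (tQ / MQ) ^ (1 - e) ≤
      384 * Λ * δ * ((tD * tP * tQ) ^ (1 - e) * (MD * MP * MQ) ^ e) := by
    have e6 : c * (tQ / MQ) ^ (1 - e) = (96 * (2 ^ (1 - e) * 2 ^ (1 - e))) * (δ * Λ *
        ((tD * tP * tQ) ^ (1 - e) * (MD * MP * MQ) ^ e)) := by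
      rw [Real.mul_rpow (by positivity) htQ.le, Real.mul_rpow htD.le htP.le,
        Real.mul_rpow (by positivity) hMQ.le, Real.mul_rpow hMD.le hMP.le]
      calc c * (tQ / MQ) ^ (1 - e) = 96 * δ * (2 ^ (1 - e) * 2 ^ (1 - e)) *
          (Λ * (tD ^ (1 - e) * MD ^ e) * (tP ^ (1 - e) * MP ^ e)) * (MQ * (tQ / MQ) ^ (1 - e)) := by
            rw [hc]; ring
        _ = _ := by rw [hMe]; ring
    rw [e6]
    have h7 : 0 ≤ δ * Λ * ((tD * tP * tQ) ^ (1 - e) * (MD * MP * MQ) ^ e) := by positivity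
    nlinarith
  calc ((K : ℝ) + 1) * (8 ^ K * (c * ((tQ / MQ) ^ (1 - e) * F)))
      = 8 ^ K * ((K + 1) * (c * (tQ / MQ) ^ (1 - e)) * F) := by ring
    _ ≤ 8 ^ K * ((K + 1) * (384 * Λ * δ * ((tD * tP * tQ) ^ (1 - e) * (MD * MP * MQ) ^ e)) * F) := by
        refine mul_le_mul_of_nonneg_left ?_ (by positivity)
        refine mul_le_mul_of_nonneg_right ?_ hF0
        exact mul_le_mul_of_nonneg_left h5 (by positivity)
    _ = _ := by ring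

end

end Vale.Agent.P141.PL.H990
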