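import Vale.Agent.P141.PL.H990.KillSet
import Vale.Agent.P141.PL.H990.ErrSum
import Vale.Agent.P141.PL.H319.Six
import Vale.Agent.P141.PL.H314.RemNode

/-!
# P141, cost theorem: the error of killing

Six families of bad pairs of small measure are given; the kill sets are `kR`.  The sum over all
nodes which are not stopped of the difference of the full and the killed trilinear forms is small.
-/

namespace Vale.Agent.P141.PL.H990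

noncomputable section

open Finset
open scoped Classical
open Vale.Agent.P141.PL.H315 (Tri atm wt wN cube3 mx A2 e12 e13 e23)
open Vale.Agent.P141.PL.H317 (cbs i0 crn ed)
open Vale.Agent.P141.PL.H997 (mat matk matk_of matk_of_not)
open Vale.Agent.P141.PL.H319 (Tst Mat Sml cnd eb node_total)

/-- A companion times an edge function at a node which is not stopped. -/
theorem mat_of {n : ℕ} {e δ Λ : ℝ} (he0 : 0 ≤ e) (he1 : e ≤ 1) (hδ : 0 ≤ δ) (hΛ : 0 ≤ Λ)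
    {G : ℕ → Pt → ℝ} (hG : Comp n e δ Λ G) {k : ℕ} (hk : k ≤ n) (n0 ny nz : ℤ) (a : ℤ → ℤ → ℝ)
    {t M : ℝ} (ht : 0 ≤ t) (hM : 0 ≤ M)
    (ha : ∑ y ∈ iv k ny, ∑ z ∈ iv k nz, a y z ^ 2 ≤
      ((iv k ny).card : ℝ) * (iv k nz).card * (2 * t) ^ 2)
    (ha' : ∀ y ∈ iv k ny, ∀ z ∈ iv k nz, |a y z| ≤ M) :
    Mat e (δ * ((2 * t) ^ (1 - e) * M ^ e)) (4 * Λ * t ^ 2) (Λ * M ^ 2) (iv k n0) (iv k ny)
      (iv k nz) (fun x0 y z => a y z * G k (x0, y, z)) where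
  tst := Tst.of_unif (H314.Comp.unifN hδ he0 he1 hG le_rfl hk (n0, ny, nz))
    (by positivity) hM ha ha'
  tau := by positivity
  m0 := by positivity
  en := by
    have h1 : ∑ x0 ∈ iv k n0, ∑ y ∈ iv k ny, ∑ z ∈ iv k nz, (a y z * G k (x0, y, z)) ^ 2 =
        ∑ y ∈ iv k ny, ∑ z ∈ iv k nz, a y z ^ 2 * ∑ x0 ∈ iv k n0, G k (x0, y, z) ^ 2 := by
      rw [sum_comm]
      refine sum_congr rfl fun y _ => ?_
      rw [sum_comm]
      refine sum_congr rfl fun z _ => ?_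
      rw [mul_sum]
      refine sum_congr rfl fun x0 _ => ?_
      rw [mul_pow]
    rw [h1]
    calc _ ≤ ∑ y ∈ iv k ny, ∑ z ∈ iv k nz, a y z ^ 2 * (2 ^ k * Λ) :=
          sum_le_sum fun y _ => sum_le_sum fun z _ =>
            mul_le_mul_of_nonneg_left (hG.line1 k k le_rfl hk n0 y z) (sq_nonneg _)
      _ = (∑ y ∈ iv k ny, ∑ z ∈ iv k nz, a y z ^ 2) * (2 ^ k * Λ) := by
          rw [sum_mul]
          exact sum_congr rfl fun y _ => (sum_mul _ _ _).symm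
      _ ≤ (((iv k ny).card : ℝ) * (iv k nz).card * (2 * t) ^ 2) * (2 ^ k * Λ) :=
          mul_le_mul_of_nonneg_right ha (by positivity)
      _ = _ := by
          rw [card_iv, card_iv, card_iv]
          push_cast
          ring
  ly := by
    intro x0 _ z hz
    calc ∑ y ∈ iv k ny, (a y z * G k (x0, y, z)) ^ 2
        ≤ ∑ y ∈ iv k ny, M ^ 2 * G k (x0, y, z) ^ 2 := by
          refine sum_le_sum fun y hy => ?_
          rw [mul_pow]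
          refine mul_le_mul_of_nonneg_right ?_ (sq_nonneg _)
          have := ha' y hy z hz
          rw [← sq_abs]
          exact pow_le_pow_left₀ (abs_nonneg _) this 2
      _ = M ^ 2 * ∑ y ∈ iv k ny, G k (x0, y, z) ^ 2 := by rw [mul_sum]
      _ ≤ M ^ 2 * (2 ^ k * Λ) :=
          mul_le_mul_of_nonneg_left (hG.line2 k k le_rfl hk x0 ny z) (sq_nonneg _)
      _ = _ := by
          rw [card_iv]
          push_cast
          ring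
  lz := by
    intro x0 _ y hy
    calc ∑ z ∈ iv k nz, (a y z * G k (x0, y, z)) ^ 2
        ≤ ∑ z ∈ iv k nz, M ^ 2 * G k (x0, y, z) ^ 2 := by
          refine sum_le_sum fun z hz => ?_
          rw [mul_pow]
          refine mul_le_mul_of_nonneg_right ?_ (sq_nonneg _)
          have := ha' y hy z hz
          rw [← sq_abs]
          exact pow_le_pow_left₀ (abs_nonneg _) this 2
      _ = M ^ 2 * ∑ z ∈ iv k nz, G k (x0, y, z) ^ 2 := by rw [mul_sum]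
      _ ≤ M ^ 2 * (2 ^ k * Λ) :=
          mul_le_mul_of_nonneg_left (hG.line3 k k le_rfl hk x0 y nz) (sq_nonneg _)
      _ = _ := by
          rw [card_iv]
          push_cast
          ring

/-- The union of the bad sets is small at the node, tautologically. -/
theorem sml_Us (K : ℕ) (b : ℕ → ℤ → ℤ → ℤ → Finset (ℤ × ℤ)) (k : ℕ) (n0 ni nj : ℤ) :
    Sml (((Us K b k n0 ni nj).card : ℝ) / 4 ^ k) (iv k n0) (iv k ni) (Us K b k n0 ni nj) where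
  sub := by unfold Us; exact filter_subset _ _
  card := by
    rw [card_iv, card_iv]
    push_cast
    have : (2 : ℝ) ^ k * 2 ^ k = 4 ^ k := by rw [← mul_pow]; norm_num
    rw [this, div_mul_cancel₀ _ (by positivity)]

/-- The killed matrix on a node whose own edge is not stopped. -/
theorem matk_eq {K k : ℕ} {a : ℤ × ℤ → ℝ} {b1 b2 : ℕ → ℤ → ℤ → ℤ → Finset (ℤ × ℤ)}
    {G : ℕ → Pt → ℝ} {n0 n1 n2 x y z : ℤ} (hx : x ∈ iv k n0) (hy : y ∈ iv k n1) (hz : z ∈ iv k n2)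
    (hst : ¬ stp a K k (x, y, z)) :
    matk (ed a) (kR K a b1 b2) G x k y z = (ed a y z * G k (x, y, z)) *
      (cnd (Us K b1 k n0 n1 n2) x y * cnd (Us K b2 k n0 n2 n1) x z) := by
  have h := kR_iff (b1 := b1) (b2 := b2) hx hy hz hst
  unfold H319.cnd
  by_cases hR : kR K a b1 b2 k (x, y, z)
  · rw [matk_of hR]
    rcases h.mp hR with h1 | h1
    · rw [if_pos h1, zero_mul, mul_zero]
    · rw [if_pos h1, mul_zero, mul_zero]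
  · rw [matk_of_not hR]
    have h2 := mt h.mpr hR
    rw [not_or] at h2
    rw [if_neg h2.1, if_neg h2.2, mul_one, mul_one]

theorem ix_crn (k : ℕ) (m : ℤ) : ix k (2 ^ k * m) = m := by
  unfold ix
  rw [Int.mul_ediv_cancel_left _ (by positivity)]

theorem ix_root {K k : ℕ} (hk : k ≤ K) {m y v : ℤ} (hm : m ∈ iv (K - k) (ix K v))
    (hy : y ∈ iv k m) : ix K y = ix K v := by
  rw [mem_iv] at hm hy
  have e : K = k + (K - k) := by omega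
  rw [← hm, e, ← ix_ix, hy, ← e]

/-- The averages on the squares of a node, and the maxima. -/
theorem edge_of {K k : ℕ} (hk : k ≤ K) (a : ℤ × ℤ → ℝ) {v w m1 m2 : ℤ}
    (h1 : m1 ∈ iv (K - k) (ix K v)) (h2 : m2 ∈ iv (K - k) (ix K w)) {x0 : ℤ}
    (hst : ¬ stp a K k (x0, 2 ^ k * m1, 2 ^ k * m2)) :
    ∑ y ∈ iv k m1, ∑ z ∈ iv k m2, ed a y z ^ 2 ≤
      ((iv k m1).card : ℝ) * (iv k m2).card * (2 * √(A2 K a v w)) ^ 2 := by
  have h3 : ¬ 4 * A2 K a (2 ^ k * m1) (2 ^ k * m2) < A2 k a (2 ^ k * m1) (2 ^ k * m2) :=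
    fun h => hst ⟨k, le_rfl, hk, h⟩
  rw [not_lt] at h3
  have h4 : A2 K a (2 ^ k * m1) (2 ^ k * m2) = A2 K a v w := by
    refine A2_congr a ?_ ?_
    · exact H315.mem_iv.mpr (ix_root hk h1 (mem_iv.mpr (ix_crn k m1)))
    · exact H315.mem_iv.mpr (ix_root hk h2 (mem_iv.mpr (ix_crn k m2)))
  have h5 : A2 k a (2 ^ k * m1) (2 ^ k * m2) =
      (((iv k m1).card : ℝ) * (iv k m2).card)⁻¹ * ∑ y ∈ iv k m1, ∑ z ∈ iv k m2, ed a y z ^ 2 := by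
    unfold H315.A2 H315.avg H317.ed
    rw [← H314.iv_eq', ← H314.iv_eq', card_product, sum_product]
    push_cast
    rfl
  rw [h4, h5] at h3
  have h6 : (0 : ℝ) < ((iv k m1).card : ℝ) * (iv k m2).card := by
    rw [card_iv, card_iv]; positivity
  rw [inv_mul_le_iff₀ h6] at h3
  refine h3.trans (le_of_eq ?_)
  rw [mul_pow, Real.sq_sqrt (H315.A2_nonneg _ _ _ _)]
  norm_num

theorem max12 {K k : ℕ} (hk : k ≤ K) (u : Tri) {x : Pt} {m1 m2 : ℤ}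
    (h1 : m1 ∈ iv (K - k) (ix K x.1)) (h2 : m2 ∈ iv (K - k) (ix K x.2.1)) :
    ∀ y ∈ iv k m1, ∀ z ∈ iv k m2, |ed u.1 y z| ≤ mx (cube3 K x) (e12 u.1) := by
  intro y hy z hz
  have hq : (y, z, x.2.2) ∈ cube3 K x := H315.mem_cube3.mpr
    ⟨H315.mem_iv.mpr (ix_root hk h1 hy), H315.mem_iv.mpr (ix_root hk h2 hz),
      H315.self_mem_iv _ _⟩
  exact H315.abs_le_mx hq (e12 u.1)

theorem max13 {K k : ℕ} (hk : k ≤ K) (u : Tri) {x : Pt} {m1 m3 : ℤ}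
    (h1 : m1 ∈ iv (K - k) (ix K x.1)) (h3 : m3 ∈ iv (K - k) (ix K x.2.2)) :
    ∀ y ∈ iv k m1, ∀ z ∈ iv k m3, |ed u.2.1 y z| ≤ mx (cube3 K x) (e13 u.2.1) := by
  intro y hy z hz
  have hq : (y, x.2.1, z) ∈ cube3 K x := H315.mem_cube3.mpr
    ⟨H315.mem_iv.mpr (ix_root hk h1 hy), H315.self_mem_iv _ _,
      H315.mem_iv.mpr (ix_root hk h3 hz)⟩
  exact H315.abs_le_mx hq (e13 u.2.1)

theorem max23 {K k : ℕ} (hk : k ≤ K) (u : Tri) {x : Pt} {m2 m3 : ℤ}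
    (h2 : m2 ∈ iv (K - k) (ix K x.2.1)) (h3 : m3 ∈ iv (K - k) (ix K x.2.2)) :
    ∀ y ∈ iv k m2, ∀ z ∈ iv k m3, |ed u.2.2 y z| ≤ mx (cube3 K x) (e23 u.2.2) := by
  intro y hy z hz
  have hq : (x.1, y, z) ∈ cube3 K x := H315.mem_cube3.mpr
    ⟨H315.self_mem_iv _ _, H315.mem_iv.mpr (ix_root hk h2 hy),
      H315.mem_iv.mpr (ix_root hk h3 hz)⟩
  exact H315.abs_le_mx hq (e23 u.2.2)

/-- the tested constant of an edge: `t` average, `M` maximum -/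
def tau (e δ t M : ℝ) : ℝ := δ * ((2 * t) ^ (1 - e) * M ^ e)

/-- **One node.** -/
theorem node_diff {n : ℕ} {e δ Λ : ℝ} (he0 : 0 ≤ e) (he1 : e ≤ 1) (hδ : 0 ≤ δ) (hΛ : 0 ≤ Λ)
    {G1 G2 G3 : ℕ → Pt → ℝ} (h1 : Comp n e δ Λ G1) (h2 : Comp n e δ Λ G2) (h3 : Comp n e δ Λ G3)
    {k K : ℕ} (hkK : k ≤ K) (hK : K ≤ n) (u : Tri) (x : Pt) {m : Pt} (hm : m ∈ cbs K (cx K x) k)
    (hns : ¬ stopped u K k (crn k m)) (n0 : ℤ)
    (bA1 bA2 bB2 bB3 bC1 bC3 : ℕ → ℤ → ℤ → ℤ → Finset (ℤ × ℤ)) {t12 t13 t23 M12 M13 M23 : ℝ}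
    (e12' : t12 = √(q12 u K x)) (e13' : t13 = √(q13 u K x)) (e23' : t23 = √(q23 u K x))
    (f12 : M12 = mx (cube3 K x) (e12 u.1)) (f13 : M13 = mx (cube3 K x) (e13 u.2.1))
    (f23 : M23 = mx (cube3 K x) (e23 u.2.2)) :
    ∑ x0 ∈ iv k n0,
      |tri k m (mat (ed u.1) G3 x0 k) (mat (ed u.2.2) G1 x0 k) (mat (ed u.2.1) G2 x0 k) -
        tri k m (matk (ed u.1) (kR K u.1 bA1 bA2) G3 x0 k)
          (matk (ed u.2.2) (kR K u.2.2 bB2 bB3) G1 x0 k)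
          (matk (ed u.2.1) (kR K u.2.1 bC1 bC3) G2 x0 k)| ≤
      16 ^ k * (
        eb e (tau e δ t23 M23) (4 * Λ * t12 ^ 2)
          (((Us K bA1 k n0 m.1 m.2.1).card : ℝ) / 4 ^ k) (Λ * M12 ^ 2) (Λ * M13 ^ 2) +
        eb e (tau e δ t13 M13) (4 * Λ * t12 ^ 2)
          (((Us K bA2 k n0 m.2.1 m.1).card : ℝ) / 4 ^ k) (Λ * M12 ^ 2) (Λ * M23 ^ 2) +
        eb e (tau e δ t13 M13) (4 * Λ * t23 ^ 2)
          (((Us K bB2 k n0 m.2.1 m.2.2).card : ℝ) / 4 ^ k) (Λ * M23 ^ 2) (Λ * M12 ^ 2) +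
        eb e (tau e δ t12 M12) (4 * Λ * t23 ^ 2)
          (((Us K bB3 k n0 m.2.2 m.2.1).card : ℝ) / 4 ^ k) (Λ * M23 ^ 2) (Λ * M13 ^ 2) +
        eb e (tau e δ t23 M23) (4 * Λ * t13 ^ 2)
          (((Us K bC1 k n0 m.1 m.2.2).card : ℝ) / 4 ^ k) (Λ * M13 ^ 2) (Λ * M12 ^ 2) +
        eb e (tau e δ t12 M12) (4 * Λ * t13 ^ 2)
          (((Us K bC3 k n0 m.2.2 m.1).card : ℝ) / 4 ^ k) (Λ * M13 ^ 2) (Λ * M23 ^ 2)) := by
  rw [H317.cbs, mem_product, mem_product] at hm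
  obtain ⟨hm1, hm2, hm3⟩ := hm
  have hkn : k ≤ n := hkK.trans hK
  -- the three edges are not stopped
  have s12 : ∀ x0, ¬ stp u.1 K k (x0, 2 ^ k * m.1, 2 ^ k * m.2.1) := by
    rintro x0 ⟨l, g1, g2, g3⟩
    exact hns ⟨l, g1, g2, Or.inl g3⟩
  have s13 : ∀ x0, ¬ stp u.2.1 K k (x0, 2 ^ k * m.1, 2 ^ k * m.2.2) := by
    rintro x0 ⟨l, g1, g2, g3⟩
    exact hns ⟨l, g1, g2, Or.inr (Or.inl g3)⟩
  have s23 : ∀ x0, ¬ stp u.2.2 K k (x0, 2 ^ k * m.2.1, 2 ^ k * m.2.2) := by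
    rintro x0 ⟨l, g1, g2, g3⟩
    exact hns ⟨l, g1, g2, Or.inr (Or.inr g3)⟩
  have st : ∀ {a : ℤ × ℤ → ℝ} {c d : ℤ} (_ : ∀ x0, ¬ stp a K k (x0, 2 ^ k * c, 2 ^ k * d))
      {x0 y z : ℤ} (_ : y ∈ iv k c) (_ : z ∈ iv k d), ¬ stp a K k (x0, y, z) := by
    intro a c d hs x0 y z hy hz hst
    refine hs x0 ((stp_congr hkK ?_ ?_).mp hst)
    · rw [ix_crn]; exact mem_iv.mp hy
    · rw [ix_crn]; exact mem_iv.mp hz
  have hM12 : 0 ≤ M12 := f12 ▸ H315.mx_nonneg _ _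
  have hM13 : 0 ≤ M13 := f13 ▸ H315.mx_nonneg _ _
  have hM23 : 0 ≤ M23 := f23 ▸ H315.mx_nonneg _ _
  have ht12 : 0 ≤ t12 := e12' ▸ Real.sqrt_nonneg _
  have ht13 : 0 ≤ t13 := e13' ▸ Real.sqrt_nonneg _
  have ht23 : 0 ≤ t23 := e23' ▸ Real.sqrt_nonneg _
  have hA := mat_of he0 he1 hδ hΛ h3 hkn n0 m.1 m.2.1 (ed u.1) ht12 hM12
    (by rw [e12']; exact edge_of hkK u.1 hm1 hm2 (s12 0))
    (by rw [f12]; exact max12 hkK u hm1 hm2)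
  have hB := mat_of he0 he1 hδ hΛ h1 hkn n0 m.2.1 m.2.2 (ed u.2.2) ht23 hM23
    (by rw [e23']; exact edge_of hkK u.2.2 hm2 hm3 (s23 0))
    (by rw [f23]; exact max23 hkK u hm2 hm3)
  have hC := mat_of he0 he1 hδ hΛ h2 hkn n0 m.1 m.2.2 (ed u.2.1) ht13 hM13
    (by rw [e13']; exact edge_of hkK u.2.1 hm1 hm3 (s13 0))
    (by rw [f13]; exact max13 hkK u hm1 hm3)
  have hne : ∀ c : ℤ, (iv k c).Nonempty := fun c => by
    rw [← card_pos, card_iv]; positivity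
  have key := node_total he0 he1 (hne n0) (hne m.1) (hne m.2.1) (hne m.2.2) hA hB hC
    (sml_Us K bA1 k n0 m.1 m.2.1) (sml_Us K bA2 k n0 m.2.1 m.1)
    (sml_Us K bB2 k n0 m.2.1 m.2.2) (sml_Us K bB3 k n0 m.2.2 m.2.1)
    (sml_Us K bC1 k n0 m.1 m.2.2) (sml_Us K bC3 k n0 m.2.2 m.1)
    (g1 := hs k) (g2 := hs k) (g3 := hs k) (fun y => (abs_hs k y).le) (fun y => (abs_hs k y).le)
    (fun y => (abs_hs k y).le)
  have e4 : ((iv k n0).card : ℝ) * (iv k m.1).card * (iv k m.2.1).card * (iv k m.2.2).card =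
      16 ^ k := by
    rw [card_iv, card_iv, card_iv, card_iv]
    push_cast
    rw [← mul_pow, ← mul_pow, ← mul_pow]
    norm_num
  rw [e4] at key
  refine le_trans (le_of_eq ?_) key
  refine sum_congr rfl fun x0 hx0 => ?_
  congr 1
  unfold tri
  congr 1
  refine sum_congr rfl fun y hy => sum_congr rfl fun z hz => sum_congr rfl fun w hw => ?_
  rw [matk_eq hx0 hy hz (st s12 hy hz), matk_eq hx0 hz hw (st s23 hz hw),
    matk_eq hx0 hy hw (st s13 hy hw)]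

/-- The weight in terms of averages and maxima. -/
theorem wt_tM {δ e : ℝ} (K : ℕ) (x : Pt) (u : Tri) {t12 t13 t23 M12 M13 M23 : ℝ}
    (e12' : t12 = √(q12 u K x)) (e13' : t13 = √(q13 u K x)) (e23' : t23 = √(q23 u K x))
    (f12 : M12 = mx (cube3 K x) (e12 u.1)) (f13 : M13 = mx (cube3 K x) (e13 u.2.1))
    (f23 : M23 = mx (cube3 K x) (e23 u.2.2)) :
    wt δ e (cube3 K x) u = 8 ^ K * (δ * ((t12 * t13 * t23) ^ (1 - e) *
      (M12 * M13 * M23) ^ e)) := by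
  have hM12 : 0 ≤ M12 := f12 ▸ H315.mx_nonneg _ _
  have hM13 : 0 ≤ M13 := f13 ▸ H315.mx_nonneg _ _
  have hM23 : 0 ≤ M23 := f23 ▸ H315.mx_nonneg _ _
  rw [H315.wt_eq, wN_eq, ← f12, ← f13, ← f23, hLW_eq, ← e12', ← e13', ← e23',
    H315.card_cube3, Real.mul_rpow (mul_nonneg hM12 hM13) hM23, Real.mul_rpow hM12 hM13]
  push_cast
  ring

theorem eb_nonneg {e τD eP v mP mQ : ℝ} (h1 : 0 ≤ τD) (h2 : 0 ≤ eP) (h3 : 0 ≤ v) (h4 : 0 ≤ mP)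
    (h5 : 0 ≤ mQ) : 0 ≤ eb e τD eP v mP mQ := by
  unfold H319.eb
  positivity

/-- **The error clause of `B5a`.** -/
theorem err_clause {n : ℕ} {e δ Λ θ : ℝ} (he0 : 0 < e) (he1 : e ≤ 1) (hδ : 0 ≤ δ) (hΛ : 0 ≤ Λ)
    (hθ : 0 < θ) {G1 G2 G3 : ℕ → Pt → ℝ} (h1 : Comp n e δ Λ G1) (h2 : Comp n e δ Λ G2)
    (h3 : Comp n e δ Λ G3) {o : ℤ} (ho : |o| ≤ 1) {K : ℕ} (hK : K ≤ n) (x : Pt) (u : Tri)
    (p12 : 0 < √(q12 u K x)) (p13 : 0 < √(q13 u K x)) (p23 : 0 < √(q23 u K x))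
    (r12 : 0 < mx (cube3 K x) (e12 u.1)) (r13 : 0 < mx (cube3 K x) (e13 u.2.1))
    (r23 : 0 < mx (cube3 K x) (e23 u.2.2))
    (bA1 bA2 bB2 bB3 bC1 bC3 : ℕ → ℤ → ℤ → ℤ → Finset (ℤ × ℤ))
    (sA1 : ∀ m ≤ K, ∀ n0 ni nj, bA1 m n0 ni nj ⊆ iv m n0 ×ˢ iv m ni)
    (sA2 : ∀ m ≤ K, ∀ n0 ni nj, bA2 m n0 ni nj ⊆ iv m n0 ×ˢ iv m ni)
    (sB2 : ∀ m ≤ K, ∀ n0 ni nj, bB2 m n0 ni nj ⊆ iv m n0 ×ˢ iv m ni)
    (sB3 : ∀ m ≤ K, ∀ n0 ni nj, bB3 m n0 ni nj ⊆ iv m n0 ×ˢ iv m ni)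
    (sC1 : ∀ m ≤ K, ∀ n0 ni nj, bC1 m n0 ni nj ⊆ iv m n0 ×ˢ iv m ni)
    (sC3 : ∀ m ≤ K, ∀ n0 ni nj, bC3 m n0 ni nj ⊆ iv m n0 ×ˢ iv m ni)
    (cA1 : ∀ m ≤ K, ∀ n0 ni nj, ((bA1 m n0 ni nj).card : ℝ) ≤
      2 * (θ * (√(q13 u K x) / mx (cube3 K x) (e13 u.2.1)) ^ 2) * 4 ^ m)
    (cA2 : ∀ m ≤ K, ∀ n0 ni nj, ((bA2 m n0 ni nj).card : ℝ) ≤
      2 * (θ * (√(q23 u K x) / mx (cube3 K x) (e23 u.2.2)) ^ 2) * 4 ^ m)
    (cB2 : ∀ m ≤ K, ∀ n0 ni nj, ((bB2 m n0 ni nj).card : ℝ) ≤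
      2 * (θ * (√(q12 u K x) / mx (cube3 K x) (e12 u.1)) ^ 2) * 4 ^ m)
    (cB3 : ∀ m ≤ K, ∀ n0 ni nj, ((bB3 m n0 ni nj).card : ℝ) ≤
      2 * (θ * (√(q13 u K x) / mx (cube3 K x) (e13 u.2.1)) ^ 2) * 4 ^ m)
    (cC1 : ∀ m ≤ K, ∀ n0 ni nj, ((bC1 m n0 ni nj).card : ℝ) ≤
      2 * (θ * (√(q12 u K x) / mx (cube3 K x) (e12 u.1)) ^ 2) * 4 ^ m)
    (cC3 : ∀ m ≤ K, ∀ n0 ni nj, ((bC3 m n0 ni nj).card : ℝ) ≤
      2 * (θ * (√(q23 u K x) / mx (cube3 K x) (e23 u.2.2)) ^ 2) * 4 ^ m) :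
    ∑ k ∈ Icc 1 K, (2 ^ k : ℝ)⁻¹ * ∑ m ∈ (cbs K (cx K x) k).filter
        (fun m => ¬ stopped u K k (crn k m)), ∑ x0 ∈ iv k (i0 o m),
        |tri k m (mat (ed u.1) G3 x0 k) (mat (ed u.2.2) G1 x0 k) (mat (ed u.2.1) G2 x0 k) -
          tri k m (matk (ed u.1) (kR K u.1 bA1 bA2) G3 x0 k)
            (matk (ed u.2.2) (kR K u.2.2 bB2 bB3) G1 x0 k)
            (matk (ed u.2.1) (kR K u.2.1 bC1 bC3) G2 x0 k)| ≤
      (6 * ((K + 1) * (384 * Λ) * (6 * θ * (K + 1)) ^ ((1 - e) / 2))) * wt δ e (cube3 K x) u := by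
  classical
  obtain ⟨t12, g12⟩ : ∃ t, t = √(q12 u K x) := ⟨_, rfl⟩
  obtain ⟨t13, g13⟩ : ∃ t, t = √(q13 u K x) := ⟨_, rfl⟩
  obtain ⟨t23, g23⟩ : ∃ t, t = √(q23 u K x) := ⟨_, rfl⟩
  obtain ⟨M12, f12⟩ : ∃ t, t = mx (cube3 K x) (e12 u.1) := ⟨_, rfl⟩
  obtain ⟨M13, f13⟩ : ∃ t, t = mx (cube3 K x) (e13 u.2.1) := ⟨_, rfl⟩
  obtain ⟨M23, f23⟩ : ∃ t, t = mx (cube3 K x) (e23 u.2.2) := ⟨_, rfl⟩
  rw [← g12] at p12 cB2 cC1
  rw [← g13] at p13 cA1 cB3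
  rw [← g23] at p23 cA2 cC3
  rw [← f12] at r12 cB2 cC1
  rw [← f13] at r13 cA1 cB3
  rw [← f23] at r23 cA2 cC3
  have hg0 : 0 ≤ (1 - e) / 2 := by linarith
  have hg1 : (1 - e) / 2 ≤ 1 := by linarith
  -- the six error terms
  set T : Fin 6 → ℕ → ℤ → ℤ → ℤ → ℝ := ![
    fun k n1 n2 n3 => eb e (tau e δ t23 M23) (4 * Λ * t12 ^ 2)
      (((Us K bA1 k (o - 2 - n1 - n2 - n3) n1 n2).card : ℝ) / 4 ^ k) (Λ * M12 ^ 2) (Λ * M13 ^ 2),
    fun k n1 n2 n3 => eb e (tau e δ t13 M13) (4 * Λ * t12 ^ 2)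
      (((Us K bA2 k (o - 2 - n1 - n2 - n3) n2 n1).card : ℝ) / 4 ^ k) (Λ * M12 ^ 2) (Λ * M23 ^ 2),
    fun k n1 n2 n3 => eb e (tau e δ t13 M13) (4 * Λ * t23 ^ 2)
      (((Us K bB2 k (o - 2 - n1 - n2 - n3) n2 n3).card : ℝ) / 4 ^ k) (Λ * M23 ^ 2) (Λ * M12 ^ 2),
    fun k n1 n2 n3 => eb e (tau e δ t12 M12) (4 * Λ * t23 ^ 2)
      (((Us K bB3 k (o - 2 - n1 - n2 - n3) n3 n2).card : ℝ) / 4 ^ k) (Λ * M23 ^ 2) (Λ * M13 ^ 2),
    fun k n1 n2 n3 => eb e (tau e δ t23 M23) (4 * Λ * t13 ^ 2)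
      (((Us K bC1 k (o - 2 - n1 - n2 - n3) n1 n3).card : ℝ) / 4 ^ k) (Λ * M13 ^ 2) (Λ * M12 ^ 2),
    fun k n1 n2 n3 => eb e (tau e δ t12 M12) (4 * Λ * t13 ^ 2)
      (((Us K bC3 k (o - 2 - n1 - n2 - n3) n3 n1).card : ℝ) / 4 ^ k) (Λ * M13 ^ 2) (Λ * M23 ^ 2)]
    with hT
  have hτ : ∀ {t M : ℝ}, 0 < t → 0 < M → 0 ≤ tau e δ t M := by
    intro t M ht hM
    unfold tau
    positivity
  have hT0 : ∀ i k n1 n2 n3, 0 ≤ T i k n1 n2 n3 := by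
    intro i k n1 n2 n3
    fin_cases i
    · exact eb_nonneg (hτ p23 r23) (by positivity) (by positivity) (by positivity) (by positivity)
    · exact eb_nonneg (hτ p13 r13) (by positivity) (by positivity) (by positivity) (by positivity)
    · exact eb_nonneg (hτ p13 r13) (by positivity) (by positivity) (by positivity) (by positivity)
    · exact eb_nonneg (hτ p12 r12) (by positivity) (by positivity) (by positivity) (by positivity)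
    · exact eb_nonneg (hτ p23 r23) (by positivity) (by positivity) (by positivity) (by positivity)
    · exact eb_nonneg (hτ p12 r12) (by positivity) (by positivity) (by positivity) (by positivity)
  -- one scale
  have hk : ∀ k ∈ Icc 1 K, (2 ^ k : ℝ)⁻¹ * ∑ m ∈ (cbs K (cx K x) k).filter
        (fun m => ¬ stopped u K k (crn k m)), ∑ x0 ∈ iv k (i0 o m),
        |tri k m (mat (ed u.1) G3 x0 k) (mat (ed u.2.2) G1 x0 k) (mat (ed u.2.1) G2 x0 k) -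
          tri k m (matk (ed u.1) (kR K u.1 bA1 bA2) G3 x0 k)
            (matk (ed u.2.2) (kR K u.2.2 bB2 bB3) G1 x0 k)
            (matk (ed u.2.1) (kR K u.2.1 bC1 bC3) G2 x0 k)| ≤
      ∑ i : Fin 6, (2 ^ k : ℝ)⁻¹ * ∑ n1 ∈ iv (K - k) (ix K x.1), ∑ n2 ∈ iv (K - k) (ix K x.2.1),
        ∑ n3 ∈ iv (K - k) (ix K x.2.2), 16 ^ k * T i k n1 n2 n3 := by
    intro k hk
    rw [mem_Icc] at hk
    rw [← mul_sum]
    refine mul_le_mul_of_nonneg_left ?_ (by positivity)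
    have e1 : ∑ i : Fin 6, ∑ n1 ∈ iv (K - k) (ix K x.1), ∑ n2 ∈ iv (K - k) (ix K x.2.1),
        ∑ n3 ∈ iv (K - k) (ix K x.2.2), 16 ^ k * T i k n1 n2 n3 =
        ∑ m ∈ cbs K (cx K x) k, 16 ^ k * ∑ i : Fin 6, T i k m.1 m.2.1 m.2.2 := by
      have e2 : ∀ i : Fin 6, ∑ n1 ∈ iv (K - k) (ix K x.1), ∑ n2 ∈ iv (K - k) (ix K x.2.1),
          ∑ n3 ∈ iv (K - k) (ix K x.2.2), 16 ^ k * T i k n1 n2 n3 =
          ∑ m ∈ cbs K (cx K x) k, 16 ^ k * T i k m.1 m.2.1 m.2.2 := by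
        intro i
        unfold H317.cbs cx
        rw [sum_product]
        refine sum_congr rfl fun n1 _ => ?_
        rw [sum_product]
      rw [sum_congr rfl fun i _ => e2 i, sum_comm]
      refine sum_congr rfl fun m _ => ?_
      rw [mul_sum]
    rw [e1]
    refine le_trans (sum_le_sum fun m hm => ?_)
      (sum_le_sum_of_subset_of_nonneg (filter_subset _ _) fun m _ _ =>
        mul_nonneg (by positivity) (sum_nonneg fun i _ => hT0 i k _ _ _))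
    rw [mem_filter] at hm
    have h4 := node_diff he0.le he1 hδ hΛ h1 h2 h3 hk.2 hK u x hm.1 hm.2 (i0 o m) bA1 bA2 bB2 bB3
      bC1 bC3 g12 g13 g23 f12 f13 f23
    refine h4.trans (le_of_eq ?_)
    rw [Fin.sum_univ_six]
    rfl
  refine (sum_le_sum hk).trans ?_
  rw [sum_comm]
  -- the six sums
  have hb : ∀ i : Fin 6, ∑ k ∈ Icc 1 K, (2 ^ k : ℝ)⁻¹ * ∑ n1 ∈ iv (K - k) (ix K x.1),
      ∑ n2 ∈ iv (K - k) (ix K x.2.1), ∑ n3 ∈ iv (K - k) (ix K x.2.2), 16 ^ k * T i k n1 n2 n3 ≤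
      ∑ k ∈ range (K + 1), (2 ^ k : ℝ)⁻¹ * ∑ n1 ∈ iv (K - k) (ix K x.1),
      ∑ n2 ∈ iv (K - k) (ix K x.2.1), ∑ n3 ∈ iv (K - k) (ix K x.2.2), 16 ^ k * T i k n1 n2 n3 := by
    intro i
    refine sum_le_sum_of_subset_of_nonneg ?_ fun k _ _ => ?_
    · intro k hk
      rw [mem_Icc] at hk
      rw [mem_range]
      omega
    · exact mul_nonneg (by positivity) (sum_nonneg fun _ _ => sum_nonneg fun _ _ =>
        sum_nonneg fun _ _ => mul_nonneg (by positivity) (hT0 i k _ _ _))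
  have hz : ∀ {c : ℕ} {k : ℕ}, (0 : ℝ) ≤ (c : ℝ) / 4 ^ k := fun {c k} => by positivity
  have main : ∀ i : Fin 6, ∑ k ∈ range (K + 1), (2 ^ k : ℝ)⁻¹ * ∑ n1 ∈ iv (K - k) (ix K x.1),
      ∑ n2 ∈ iv (K - k) (ix K x.2.1), ∑ n3 ∈ iv (K - k) (ix K x.2.2), 16 ^ k * T i k n1 n2 n3 ≤
      8 ^ K * ((K + 1) * (384 * Λ * δ) * ((t12 * t13 * t23) ^ (1 - e) * (M12 * M13 * M23) ^ e) *
        (6 * θ * (K + 1)) ^ ((1 - e) / 2)) := by
    intro i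
    fin_cases i
    · refine (err_sum he0 he1 hδ hΛ hθ p23 p12 p13 r23 r12 r13
        (fun k n1 n2 n3 => ((Us K bA1 k (o - 2 - n1 - n2 - n3) n1 n2).card : ℝ) / 4 ^ k)
        (fun _ _ _ _ => hz) (ix K x.1) (ix K x.2.1) (ix K x.2.2)
        (fun k hk => meas_rpow_12 bA1 hk sA1 cA1 _ _ _ ho hg0 hg1)).trans (le_of_eq ?_)
      rw [show t23 * t12 * t13 = t12 * t13 * t23 by ring,
        show M23 * M12 * M13 = M12 * M13 * M23 by ring]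
    · refine (err_sum he0 he1 hδ hΛ hθ p13 p12 p23 r13 r12 r23
        (fun k n1 n2 n3 => ((Us K bA2 k (o - 2 - n1 - n2 - n3) n2 n1).card : ℝ) / 4 ^ k)
        (fun _ _ _ _ => hz) (ix K x.1) (ix K x.2.1) (ix K x.2.2)
        (fun k hk => meas_rpow_21 bA2 hk sA2 cA2 _ _ _ ho hg0 hg1)).trans (le_of_eq ?_)
      rw [show t13 * t12 * t23 = t12 * t13 * t23 by ring,
        show M13 * M12 * M23 = M12 * M13 * M23 by ring]
    · refine (err_sum he0 he1 hδ hΛ hθ p13 p23 p12 r13 r23 r12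
        (fun k n1 n2 n3 => ((Us K bB2 k (o - 2 - n1 - n2 - n3) n2 n3).card : ℝ) / 4 ^ k)
        (fun _ _ _ _ => hz) (ix K x.1) (ix K x.2.1) (ix K x.2.2)
        (fun k hk => meas_rpow_23 bB2 hk sB2 cB2 _ _ _ ho hg0 hg1)).trans (le_of_eq ?_)
      rw [show t13 * t23 * t12 = t12 * t13 * t23 by ring,
        show M13 * M23 * M12 = M12 * M13 * M23 by ring]
    · refine (err_sum he0 he1 hδ hΛ hθ p12 p23 p13 r12 r23 r13
        (fun k n1 n2 n3 => ((Us K bB3 k (o - 2 - n1 - n2 - n3) n3 n2).card : ℝ) / 4 ^ k)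
        (fun _ _ _ _ => hz) (ix K x.1) (ix K x.2.1) (ix K x.2.2)
        (fun k hk => meas_rpow_32 bB3 hk sB3 cB3 _ _ _ ho hg0 hg1)).trans (le_of_eq ?_)
      rw [show t12 * t23 * t13 = t12 * t13 * t23 by ring,
        show M12 * M23 * M13 = M12 * M13 * M23 by ring]
    · refine (err_sum he0 he1 hδ hΛ hθ p23 p13 p12 r23 r13 r12
        (fun k n1 n2 n3 => ((Us K bC1 k (o - 2 - n1 - n2 - n3) n1 n3).card : ℝ) / 4 ^ k)
        (fun _ _ _ _ => hz) (ix K x.1) (ix K x.2.1) (ix K x.2.2)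
        (fun k hk => meas_rpow_13 bC1 hk sC1 cC1 _ _ _ ho hg0 hg1)).trans (le_of_eq ?_)
      rw [show t23 * t13 * t12 = t12 * t13 * t23 by ring,
        show M23 * M13 * M12 = M12 * M13 * M23 by ring]
    · refine (err_sum he0 he1 hδ hΛ hθ p12 p13 p23 r12 r13 r23
        (fun k n1 n2 n3 => ((Us K bC3 k (o - 2 - n1 - n2 - n3) n3 n1).card : ℝ) / 4 ^ k)
        (fun _ _ _ _ => hz) (ix K x.1) (ix K x.2.1) (ix K x.2.2)
        (fun k hk => meas_rpow_31 bC3 hk sC3 cC3 _ _ _ ho hg0 hg1)).trans (le_of_eq ?_)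
      rfl
  refine (sum_le_sum fun i _ => (hb i).trans (main i)).trans (le_of_eq ?_)
  rw [sum_const, card_univ, Fintype.card_fin, nsmul_eq_mul,
    wt_tM K x u g12 g13 g23 f12 f13 f23]
  push_cast
  ring

end

end Vale.Agent.P141.PL.H990
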