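import Vale.Agent.P141.PL.H990.B5err
import Vale.Agent.P141.PL.H319.B5a
import Vale.Agent.P141.PL.H317.StCost
import Vale.Agent.P141.PL.H804.StarTh

/-! # P141: the cost theorem is proved -/

namespace Vale.Agent.P141.PL.H990

noncomputable section

open Finset
open scoped Classical
open Vale.Agent.P141.PL.H319 (Err b5a_of_err S12 S13 S23 bound_pos le_mx_12 le_mx_13 le_mx_23)

/-- **The error of killing**, in the form of `H319.Err`. -/
theorem err_th {n : ℕ} {e δ Λ θ : ℝ} (he0 : 0 < e) (he1 : e ≤ 1) (hδ : 0 < δ) (hΛ : 0 ≤ Λ)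
    (hθ : 0 < θ) : Err n e δ Λ θ
      (2304 * ((n : ℝ) + 1) * Λ * (6 * θ * ((n : ℝ) + 1)) ^ ((1 - e) / 2)) := by
  intro G1 G2 G3 h1 h2 h3 o ho K hK x u q1 q2 q3 bA1 bA2 bB2 bB3 bC1 bC3 hA1 hA2 hB2 hB3 hC1 hC3
  have hwt := H315.wt_nonneg hδ.le e (H315.cube3 K x) u
  have key := err_clause he0 he1 hδ.le hΛ hθ h1 h2 h3 ho.le hK x u (Real.sqrt_pos.mpr q1)
    (Real.sqrt_pos.mpr q2) (Real.sqrt_pos.mpr q3) (bound_pos q1 le_mx_12) (bound_pos q2 le_mx_13)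
    (bound_pos q3 le_mx_23) bA1 bA2 bB2 bB3 bC1 bC3
    (fun m _ => hA1.sub m) (fun m _ => hA2.sub m) (fun m _ => hB2.sub m) (fun m _ => hB3.sub m)
    (fun m _ => hC1.sub m) (fun m _ => hC3.sub m)
    (fun m _ => hA1.card m) (fun m _ => hA2.card m) (fun m _ => hB2.card m)
    (fun m _ => hB3.card m) (fun m _ => hC1.card m) (fun m _ => hC3.card m)
  refine key.trans (mul_le_mul_of_nonneg_right ?_ hwt)
  have hKn : (K : ℝ) ≤ n := by exact_mod_cast hK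
  have hg : 0 ≤ (1 - e) / 2 := by linarith
  have h4 : (6 * θ * ((K : ℝ) + 1)) ^ ((1 - e) / 2) ≤ (6 * θ * ((n : ℝ) + 1)) ^ ((1 - e) / 2) :=
    Real.rpow_le_rpow (by positivity)
      (mul_le_mul_of_nonneg_left (by linarith) (by positivity)) hg
  have h5 : (0 : ℝ) ≤ (6 * θ * ((K : ℝ) + 1)) ^ ((1 - e) / 2) := by positivity
  calc 6 * (((K : ℝ) + 1) * (384 * Λ) * (6 * θ * ((K : ℝ) + 1)) ^ ((1 - e) / 2))
      = 2304 * ((K : ℝ) + 1) * Λ * (6 * θ * ((K : ℝ) + 1)) ^ ((1 - e) / 2) := by ring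
    _ ≤ 2304 * ((n : ℝ) + 1) * Λ * (6 * θ * ((n : ℝ) + 1)) ^ ((1 - e) / 2) := by
        refine mul_le_mul ?_ h4 h5 (by positivity)
        exact mul_le_mul_of_nonneg_right
          (mul_le_mul_of_nonneg_left (by linarith) (by norm_num)) hΛ

/-- **The cost theorem.** -/
theorem stCost : StCost := by
  refine H317.stCost_of_theta (C1 := 13 * 6601) (Cc := 192) (CE := 2304) (q1 := 5) (by norm_num)
    (by norm_num) (by norm_num) H804.star_th ?_
  intro n hn δ Λ θ hδ hΛ hθ hθ1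
  have he0 := H314.ee_pos n
  have he1 : ee n ≤ 1 := (H314.ee_le n).trans (by norm_num)
  have hΛ0 : 0 ≤ Λ := by linarith
  exact b5a_of_err he0 he1 hδ hθ (by positivity) (err_th he0 he1 hδ hΛ0 hθ)

end

end Vale.Agent.P141.PL.H990
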