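import Vale.Agent.P141.H317.Chain

/-! Killed paths: window sums of `1_{R_t^c} G_t` for an increasing family of sets `R_t`. -/

namespace Vale.Agent.P141.PL.H990

noncomputable section

open scoped BigOperators Classical
open Finset

variable {Ω : Type*}

/-- weighted square norm -/
def wq (S : Finset Ω) (μ : Ω → ℝ) (f : Ω → ℝ) : ℝ := ∑ x ∈ S, μ x * f x ^ 2

theorem wq_nonneg {S : Finset Ω} {μ : Ω → ℝ} (hμ : ∀ x ∈ S, 0 ≤ μ x) (f : Ω → ℝ) :
    0 ≤ wq S μ f := sum_nonneg fun x hx => mul_nonneg (hμ x hx) (sq_nonneg _)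

/-- the killed path -/
def kl (R : ℕ → Set Ω) (G : ℕ → Ω → ℝ) (t : ℕ) : Ω → ℝ := fun x => if x ∈ R t then 0 else G t x

/-- the mass killed between the times `s` and `t` -/
def kill (S : Finset Ω) (μ : Ω → ℝ) (R : ℕ → Set Ω) (G : ℕ → Ω → ℝ) (s t : ℕ) : ℝ :=
  ∑ x ∈ S, if x ∈ R t ∧ x ∉ R s then μ x * G s x ^ 2 else 0

theorem kill_nonneg {S : Finset Ω} {μ : Ω → ℝ} (hμ : ∀ x ∈ S, 0 ≤ μ x) (R : ℕ → Set Ω)
    (G : ℕ → Ω → ℝ) (s t : ℕ) : 0 ≤ kill S μ R G s t := by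
  refine sum_nonneg fun x hx => ?_
  split_ifs
  · exact mul_nonneg (hμ x hx) (sq_nonneg _)
  · exact le_rfl

theorem kill_le {S : Finset Ω} {μ : Ω → ℝ} (hμ : ∀ x ∈ S, 0 ≤ μ x) (R : ℕ → Set Ω)
    (G : ℕ → Ω → ℝ) (s t : ℕ) : kill S μ R G s t ≤ wq S μ (G s) := by
  refine sum_le_sum fun x hx => ?_
  split_ifs
  · exact le_rfl
  · exact mul_nonneg (hμ x hx) (sq_nonneg _)

/-- The increment of the killed path. -/
theorem wq_kl_sub {S : Finset Ω} {μ : Ω → ℝ} (hμ : ∀ x ∈ S, 0 ≤ μ x) {R : ℕ → Set Ω}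
    (hR : Monotone R) (G : ℕ → Ω → ℝ) {s t : ℕ} (hst : s ≤ t) :
    wq S μ (kl R G t - kl R G s) ≤ wq S μ (G t - G s) + kill S μ R G s t := by
  unfold wq kill
  rw [← sum_add_distrib]
  refine sum_le_sum fun x hx => ?_
  have h0 := hμ x hx
  simp only [kl, Pi.sub_apply]
  by_cases h1 : x ∈ R s
  · have h2 : x ∈ R t := hR hst h1
    simp only [h1, h2, if_true, not_true, and_false, if_false]
    have := mul_nonneg h0 (sq_nonneg (G t x - G s x))
    simpa using this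
  · by_cases h2 : x ∈ R t
    · simp only [h1, h2, if_true, not_false_iff, and_true, if_false]
      have := mul_nonneg h0 (sq_nonneg (G t x - G s x))
      have h3 : (0 - G s x) ^ 2 = G s x ^ 2 := by ring
      rw [h3]
      linarith
    · simp [h1, h2]

/-- Splitting a window. -/
theorem kill_split {S : Finset Ω} {μ : Ω → ℝ} (hμ : ∀ x ∈ S, 0 ≤ μ x) {R : ℕ → Set Ω}
    (hR : Monotone R) (G : ℕ → Ω → ℝ) {s m t : ℕ} (hsm : s ≤ m) (hmt : m ≤ t) {η : ℝ}
    (hη : 0 < η) :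
    kill S μ R G s m + kill S μ R G m t ≤
      (1 + η) * kill S μ R G s t + (1 + η⁻¹) * wq S μ (G m - G s) := by
  unfold wq kill
  rw [← sum_add_distrib, mul_sum, mul_sum, ← sum_add_distrib]
  refine sum_le_sum fun x hx => ?_
  have h0 := hμ x hx
  have hq : μ x * G m x ^ 2 ≤ (1 + η) * (μ x * G s x ^ 2) +
      (1 + η⁻¹) * (μ x * (G m - G s) x ^ 2) := by
    have h1 : G m x ^ 2 ≤ (1 + η) * G s x ^ 2 + (1 + η⁻¹) * (G m x - G s x) ^ 2 := by
      have h2 : 0 ≤ (η * G s x - (G m x - G s x)) ^ 2 * η⁻¹ := by positivity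
      have h3 : (η * G s x - (G m x - G s x)) ^ 2 * η⁻¹ = η * G s x ^ 2 -
          2 * G s x * (G m x - G s x) + η⁻¹ * (G m x - G s x) ^ 2 := by
        field_simp
        ring
      rw [h3] at h2
      have h4 : G m x ^ 2 = G s x ^ 2 + 2 * G s x * (G m x - G s x) + (G m x - G s x) ^ 2 := by
        ring
      rw [h4]
      linarith
    calc μ x * G m x ^ 2 ≤ μ x * ((1 + η) * G s x ^ 2 + (1 + η⁻¹) * (G m x - G s x) ^ 2) :=
          mul_le_mul_of_nonneg_left h1 h0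
      _ = _ := by simp only [Pi.sub_apply]; ring
  have hA : 0 ≤ μ x * G s x ^ 2 := mul_nonneg h0 (sq_nonneg _)
  have hB : 0 ≤ (1 + η⁻¹) * (μ x * (G m - G s) x ^ 2) := by
    have := mul_nonneg h0 (sq_nonneg ((G m - G s) x))
    positivity
  by_cases h1 : x ∈ R s
  · have h2 : x ∈ R m := hR hsm h1
    simp only [h1, h2, not_true, and_false, if_false]
    simpa using hB
  · by_cases h2 : x ∈ R m
    · have h3 : x ∈ R t := hR hmt h2
      simp only [h1, h2, h3, not_true, not_false_iff, and_true, and_false, if_true, if_false]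
      nlinarith
    · by_cases h3 : x ∈ R t
      · simp only [h1, h2, h3, not_false_iff, and_true, if_true, if_false]
        linarith
      · simp only [h2, h3, false_and, if_false]
        simpa using hB

/-- **Killed paths.** -/
theorem kills (S : Finset Ω) {μ : Ω → ℝ} (hμ : ∀ x ∈ S, 0 ≤ μ x) {R : ℕ → Set Ω}
    (hR : Monotone R) (G : ℕ → Ω → ℝ) (J : ℕ) {D0 D : ℝ} (hD0 : wq S μ (G 0) ≤ D0)
    (hD : ∀ j, j < J → ∑ i ∈ range (2 ^ (J - 1 - j)),
      wq S μ (G ((2 * i + 1) * 2 ^ j) - G ((2 * i) * 2 ^ j)) ≤ D) :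
    ∀ j, j < J → ∑ i ∈ range (2 ^ (J - 1 - j)),
      wq S μ (kl R G ((2 * i + 1) * 2 ^ j) - kl R G ((2 * i) * 2 ^ j)) ≤
        3 * D0 + (1 + 3 * J * (J + 1)) * D := by
  intro j hj
  have hJ : (0 : ℝ) < J := by
    have : 0 < J := by omega
    exact_mod_cast this
  have hD0' : 0 ≤ D := (sum_nonneg fun i _ => wq_nonneg hμ _).trans (hD j hj)
  have hD00 : 0 ≤ D0 := (wq_nonneg hμ _).trans hD0
  set η : ℝ := (J : ℝ)⁻¹ with hη
  have hη0 : 0 < η := by positivity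
  set KQ : ℕ → ℝ := fun q => ∑ i ∈ range (2 ^ (J - q)), kill S μ R G (i * 2 ^ q) ((i + 1) * 2 ^ q)
    with hKQ
  have hstep : ∀ q, q < J → KQ q ≤ (1 + η) * KQ (q + 1) + (1 + η⁻¹) * D := by
    intro q hq
    have e1 : 2 ^ (J - q) = 2 * 2 ^ (J - 1 - q) := by
      rw [← pow_succ']; congr 1; omega
    have e2 : J - (q + 1) = J - 1 - q := by omega
    simp only [hKQ]
    rw [e1, H317.sum_range_two_mul, e2]
    calc _ ≤ ∑ i ∈ range (2 ^ (J - 1 - q)), ((1 + η) * kill S μ R G (i * 2 ^ (q + 1))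
          ((i + 1) * 2 ^ (q + 1)) + (1 + η⁻¹) *
          wq S μ (G ((2 * i + 1) * 2 ^ q) - G ((2 * i) * 2 ^ q))) := by
          refine sum_le_sum fun i _ => ?_
          have h1 := kill_split hμ hR G (s := 2 * i * 2 ^ q) (m := (2 * i + 1) * 2 ^ q)
            (t := (2 * i + 1 + 1) * 2 ^ q) (Nat.mul_le_mul_right _ (by omega))
            (Nat.mul_le_mul_right _ (by omega)) hη0
          have e3 : i * 2 ^ (q + 1) = 2 * i * 2 ^ q := by ring
          have e4 : (i + 1) * 2 ^ (q + 1) = (2 * i + 1 + 1) * 2 ^ q := by ring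
          rw [e3, e4]
          exact h1
      _ = (1 + η) * (∑ i ∈ range (2 ^ (J - 1 - q)), kill S μ R G (i * 2 ^ (q + 1))
          ((i + 1) * 2 ^ (q + 1))) + (1 + η⁻¹) * ∑ i ∈ range (2 ^ (J - 1 - q)),
          wq S μ (G ((2 * i + 1) * 2 ^ q) - G ((2 * i) * 2 ^ q)) := by
          rw [sum_add_distrib, ← mul_sum, ← mul_sum]
      _ ≤ _ := by
          have := hD q hq
          have h3 : 0 ≤ 1 + η⁻¹ := by positivity
          gcongr
  have hind : ∀ r, r ≤ J → KQ (J - r) ≤ (1 + η) ^ r * (D0 + r * ((1 + η⁻¹) * D)) := by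
    intro r
    induction r with
    | zero =>
      intro _
      simp only [hKQ, Nat.sub_zero, Nat.sub_self, pow_zero, range_one, sum_singleton,
        Nat.cast_zero, zero_mul, zero_add, one_mul, add_zero]
      exact (kill_le hμ _ _ _ _).trans hD0
    | succ r ih =>
      intro hr
      have h1 := ih (by omega)
      have h2 := hstep (J - (r + 1)) (by omega)
      have e1 : J - (r + 1) + 1 = J - r := by omega
      rw [e1] at h2
      have hc : 0 ≤ (1 + η⁻¹) * D := by positivity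
      have hp : 1 ≤ (1 + η) ^ (r + 1) := one_le_pow₀ (by linarith)
      calc KQ (J - (r + 1)) ≤ (1 + η) * KQ (J - r) + (1 + η⁻¹) * D := h2
        _ ≤ (1 + η) * ((1 + η) ^ r * (D0 + r * ((1 + η⁻¹) * D))) +
            (1 + η) ^ (r + 1) * ((1 + η⁻¹) * D) :=
          add_le_add (mul_le_mul_of_nonneg_left h1 (by positivity))
            (le_mul_of_one_le_left hc hp)
        _ = _ := by push_cast; ring
  have hKj : KQ j ≤ 3 * D0 + 3 * J * (J + 1) * D := by
    have h1 := hind (J - j) (by omega)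
    have e1 : J - (J - j) = j := by omega
    rw [e1] at h1
    refine h1.trans ?_
    have h2 : (1 + η) ^ (J - j) ≤ 3 :=
      (pow_le_pow_right₀ (by linarith) (by omega)).trans (H317.one_add_inv_pow_le J)
    have h3 : ((J - j : ℕ) : ℝ) ≤ J := by exact_mod_cast Nat.sub_le J j
    have h4 : D0 + ((J - j : ℕ) : ℝ) * ((1 + η⁻¹) * D) ≤ D0 + J * ((1 + η⁻¹) * D) := by
      have : 0 ≤ (1 + η⁻¹) * D := by positivity
      gcongr
    have h5 : 0 ≤ D0 + J * ((1 + η⁻¹) * D) := by positivity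
    have h6 : η⁻¹ = J := by rw [hη, inv_inv]
    calc _ ≤ (1 + η) ^ (J - j) * (D0 + J * ((1 + η⁻¹) * D)) :=
          mul_le_mul_of_nonneg_left h4 (by positivity)
      _ ≤ 3 * (D0 + J * ((1 + η⁻¹) * D)) := mul_le_mul_of_nonneg_right h2 h5
      _ = _ := by rw [h6]; ring
  have hev : ∑ i ∈ range (2 ^ (J - 1 - j)), kill S μ R G ((2 * i) * 2 ^ j) ((2 * i + 1) * 2 ^ j) ≤
      KQ j := by
    have e1 : 2 ^ (J - j) = 2 * 2 ^ (J - 1 - j) := by
      rw [← pow_succ']; congr 1; omega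
    simp only [hKQ]
    rw [e1, H317.sum_range_two_mul]
    refine sum_le_sum fun i _ => ?_
    have := kill_nonneg hμ R G ((2 * i + 1) * 2 ^ j) ((2 * i + 1 + 1) * 2 ^ j)
    linarith
  calc _ ≤ ∑ i ∈ range (2 ^ (J - 1 - j)), (wq S μ (G ((2 * i + 1) * 2 ^ j) - G ((2 * i) * 2 ^ j)) +
        kill S μ R G ((2 * i) * 2 ^ j) ((2 * i + 1) * 2 ^ j)) :=
        sum_le_sum fun i _ => wq_kl_sub hμ hR G (Nat.mul_le_mul_right _ (by omega))
    _ ≤ D + (3 * D0 + 3 * J * (J + 1) * D) := by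
        rw [sum_add_distrib]
        exact add_le_add (hD j hj) (hev.trans hKj)
    _ = _ := by ring

theorem wq_kl_le {S : Finset Ω} {μ : Ω → ℝ} (hμ : ∀ x ∈ S, 0 ≤ μ x) (R : ℕ → Set Ω)
    (G : ℕ → Ω → ℝ) (t : ℕ) : wq S μ (kl R G t) ≤ wq S μ (G t) := by
  refine sum_le_sum fun x hx => ?_
  unfold kl
  split_ifs
  · have := mul_nonneg (hμ x hx) (sq_nonneg (G t x))
    simpa using this
  · exact le_rfl

/-- **Killed paths**, `n ≤ 2 ^ J` times (format of `H317.chain_fun'`). -/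
theorem kills' (S : Finset Ω) {μ : Ω → ℝ} (hμ : ∀ x ∈ S, 0 ≤ μ x) {R : ℕ → Set Ω}
    (hR : Monotone R) (G : ℕ → Ω → ℝ) (n J : ℕ) {D0 D : ℝ} (hD0 : wq S μ (G 0) ≤ D0)
    (hD : ∀ j, j < J → ∑ i ∈ range (2 ^ (J - 1 - j)),
      wq S μ (G (min ((2 * i + 1) * 2 ^ j) n) - G (min ((2 * i) * 2 ^ j) n)) ≤ D) :
    ∀ j, j < J → ∑ i ∈ range (2 ^ (J - 1 - j)),
      wq S μ (kl R G (min ((2 * i + 1) * 2 ^ j) n) - kl R G (min ((2 * i) * 2 ^ j) n)) ≤
        3 * D0 + (1 + 3 * J * (J + 1)) * D := by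
  have hR' : Monotone fun t => R (min t n) := fun a b hab => hR (by omega)
  have h := kills S hμ hR' (fun t => G (min t n)) J (D0 := D0) (D := D)
    (by simpa using hD0) hD
  exact h

end

end Vale.Agent.P141.PL.H990
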