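import Vale.Agent.P141.H315.Process

/-! Stopping rules on a tree of cubes. -/

namespace Vale.Agent.P141.PL.H990

noncomputable section

open scoped BigOperators Classical
open Vale.Agent.P141.H315

variable {X : Type*} {g : Grid X}

/-- A stopping rule below the scale `K`: `S k z` says that the point `z` has stopped at a scale
`≥ k` (scales decrease). -/
structure Rule (g : Grid X) (K : ℕ) where
  /-- stopped at a scale `≥ k` -/
  S : ℕ → X → Prop
  mono : ∀ k z, S (k + 1) z → S k z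
  const : ∀ k z z', z' ∈ g.cube k z → (S k z' ↔ S k z)
  top : ∀ z, ¬ S K z

namespace Rule

variable {K : ℕ} (R : Rule g K)

theorem mono_le {k l : ℕ} (h : k ≤ l) {z : X} (hz : R.S l z) : R.S k z := by
  induction l, h using Nat.le_induction with
  | base => exact hz
  | succ m _ ih => exact ih (R.mono m z hz)

/-- the scale at which the point stops -/
def m (z : X) : ℕ := Nat.findGreatest (fun k => R.S k z) K

theorem S_m {z : X} (h : R.S 0 z) : R.S (R.m z) z :=
  Nat.findGreatest_spec (P := fun k => R.S k z) (Nat.zero_le K) h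

theorem m_lt {z : X} (h : R.S 0 z) : R.m z < K := by
  have h1 : R.m z ≤ K := Nat.findGreatest_le K
  rcases h1.lt_or_eq with h2 | h2
  · exact h2
  · exact absurd (R.S_m h) (by rw [h2]; exact R.top z)

theorem le_m {k : ℕ} {z : X} (h : R.S k z) : k ≤ R.m z := by
  refine Nat.le_findGreatest ?_ h
  by_contra hk
  push Not at hk
  exact R.top z (R.mono_le hk.le h)

theorem S_iff {k : ℕ} {z : X} (h : R.S 0 z) : R.S k z ↔ k ≤ R.m z :=
  ⟨fun hk => R.le_m hk, fun hk => R.mono_le hk (R.S_m h)⟩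

theorem const_le {k l : ℕ} (h : k ≤ l) {z z' : X} (hz : z' ∈ g.cube k z) :
    R.S l z' ↔ R.S l z := R.const l z z' (g.sub_le h z hz)

theorem m_eq_iff {z : X} {k : ℕ} : (R.S 0 z ∧ R.m z = k) ↔ (R.S k z ∧ ¬ R.S (k + 1) z) := by
  constructor
  · rintro ⟨h, rfl⟩
    refine ⟨R.S_m h, fun h2 => ?_⟩
    have := R.le_m h2
    omega
  · rintro ⟨h1, h2⟩
    have h0 := R.mono_le (Nat.zero_le k) h1
    refine ⟨h0, le_antisymm ?_ (R.le_m h1)⟩
    by_contra h3
    push Not at h3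
    exact h2 (R.mono_le h3 (R.S_m h0))

/-- Sums over the stopped points, by the stopping scale. -/
theorem sum_stopped (Q : Finset X) (a : ℕ → X → ℝ) :
    ∑ z ∈ Q with R.S 0 z, a (R.m z) z =
      ∑ k ∈ Finset.range K, ∑ z ∈ Q with (R.S k z ∧ ¬ R.S (k + 1) z), a k z := by
  have h1 : ∀ k ∈ Finset.range K, ∑ z ∈ Q with (R.S k z ∧ ¬ R.S (k + 1) z), a k z =
      ∑ z ∈ Q with R.S 0 z, if R.m z = k then a k z else 0 := by
    intro k _
    rw [← Finset.sum_filter, Finset.filter_filter]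
    refine Finset.sum_congr ?_ fun _ _ => rfl
    ext z
    simp only [Finset.mem_filter]
    rw [R.m_eq_iff]
  rw [Finset.sum_congr rfl h1, Finset.sum_comm]
  refine Finset.sum_congr rfl fun z hz => ?_
  rw [Finset.sum_ite_eq, if_pos (Finset.mem_range.mpr (R.m_lt (Finset.mem_filter.mp hz).2))]

/-- Comparison of sums over the stopped cubes. -/
theorem sum_stopped_le {x : X} {k₀ : ℕ} (hk₀ : K ≤ k₀) {a b : ℕ → X → ℝ}
    (h : ∀ k < K, ∀ y ∈ g.cube k₀ x, ∑ z ∈ g.cube k y, a k z ≤ ∑ z ∈ g.cube k y, b k z) :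
    ∑ z ∈ g.cube k₀ x with R.S 0 z, a (R.m z) z ≤ ∑ z ∈ g.cube k₀ x with R.S 0 z, b (R.m z) z := by
  rw [R.sum_stopped, R.sum_stopped]
  refine Finset.sum_le_sum fun k hk => ?_
  rw [Finset.mem_range] at hk
  rw [Finset.sum_filter, Finset.sum_filter]
  refine g.sum_le_sum_of_cubes (by omega : k ≤ k₀) x _ _ fun y hy => ?_
  have hc : ∀ z ∈ g.cube k y, (R.S k z ∧ ¬ R.S (k + 1) z) ↔ (R.S k y ∧ ¬ R.S (k + 1) y) := by
    intro z hz
    rw [R.const_le le_rfl hz, R.const_le (Nat.le_succ k) hz]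
  by_cases hy' : R.S k y ∧ ¬ R.S (k + 1) y
  · rw [Finset.sum_congr rfl fun z hz => if_pos ((hc z hz).mpr hy'),
      Finset.sum_congr rfl fun z hz => if_pos ((hc z hz).mpr hy')]
    exact h k hk y hy
  · rw [Finset.sum_congr rfl fun z hz => if_neg (fun h2 => hy' ((hc z hz).mp h2)),
      Finset.sum_congr rfl fun z hz => if_neg (fun h2 => hy' ((hc z hz).mp h2))]

/-- **Optional stopping** for a superharmonic function. -/
theorem opt_stop {x : X} {φ : ℕ → X → ℝ}
    (hφ : ∀ k < K, ∀ y, ∑ z ∈ g.cube (k + 1) y, φ k z ≤ ∑ z ∈ g.cube (k + 1) y, φ (k + 1) z) :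
    ∀ j ≤ K, ∑ z ∈ g.cube K x, (if R.S j z then φ (R.m z) z else φ j z) ≤
      ∑ z ∈ g.cube K x, φ K z := by
  intro j hj
  induction hj using Nat.decreasingInduction with
  | self => exact (Finset.sum_congr rfl fun z _ => if_neg (R.top z)).le
  | of_succ j hj ih =>
    refine le_trans ?_ ih
    have h1 : ∑ z ∈ g.cube K x, (if R.S j z then φ (R.m z) z else φ j z) =
        ∑ z ∈ g.cube K x, (if R.S (j + 1) z then φ (R.m z) z else φ j z) := by
      refine Finset.sum_congr rfl fun z _ => ?_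
      by_cases h2 : R.S (j + 1) z
      · rw [if_pos h2, if_pos (R.mono j z h2)]
      · rw [if_neg h2]
        split_ifs with h3
        · rw [((R.m_eq_iff).mpr ⟨h3, h2⟩).2]
        · rfl
    rw [h1]
    refine g.sum_le_sum_of_cubes (by omega : j + 1 ≤ K) x _ _ fun y _ => ?_
    have hc : ∀ z ∈ g.cube (j + 1) y, R.S (j + 1) z ↔ R.S (j + 1) y := fun z hz =>
      R.const_le le_rfl hz
    by_cases hy' : R.S (j + 1) y
    · rw [Finset.sum_congr rfl fun z hz => if_pos ((hc z hz).mpr hy'),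
        Finset.sum_congr rfl fun z hz => if_pos ((hc z hz).mpr hy')]
    · rw [Finset.sum_congr rfl fun z hz => if_neg (fun h2 => hy' ((hc z hz).mp h2)),
        Finset.sum_congr rfl fun z hz => if_neg (fun h2 => hy' ((hc z hz).mp h2))]
      exact hφ j hj y

/-- Optional stopping, stopped part. -/
theorem opt_stop' {x : X} {φ : ℕ → X → ℝ} (h0 : ∀ z, 0 ≤ φ 0 z)
    (hφ : ∀ k < K, ∀ y, ∑ z ∈ g.cube (k + 1) y, φ k z ≤ ∑ z ∈ g.cube (k + 1) y, φ (k + 1) z) :
    ∑ z ∈ g.cube K x with R.S 0 z, φ (R.m z) z ≤ ∑ z ∈ g.cube K x, φ K z := by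
  refine le_trans ?_ (R.opt_stop hφ 0 (Nat.zero_le K))
  rw [Finset.sum_filter]
  refine Finset.sum_le_sum fun z _ => ?_
  split_ifs
  · exact le_rfl
  · exact h0 z

end Rule

/-- The stopping rule of a family of conditions. -/
def ofCond (g : Grid X) (K : ℕ) (b : ℕ → X → Prop)
    (hb : ∀ k ≤ K, ∀ z z', z' ∈ g.cube k z → (b k z' ↔ b k z)) (hK : ∀ z, ¬ b K z) : Rule g K where
  S k z := ∃ m, k ≤ m ∧ m ≤ K ∧ b m z
  mono := by
    rintro k z ⟨m, h1, h2, h3⟩
    exact ⟨m, by omega, h2, h3⟩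
  const := by
    intro k z z' hz
    constructor
    · rintro ⟨m, h1, h2, h3⟩
      exact ⟨m, h1, h2, (hb m h2 z z' (g.sub_le h1 z hz)).mp h3⟩
    · rintro ⟨m, h1, h2, h3⟩
      exact ⟨m, h1, h2, (hb m h2 z z' (g.sub_le h1 z hz)).mpr h3⟩
  top := by
    rintro z ⟨m, h1, h2, h3⟩
    have : m = K := le_antisymm h2 h1
    exact hK z (this ▸ h3)

/-- At the stopping scale the condition holds. -/
theorem ofCond_b {K : ℕ} {b : ℕ → X → Prop}
    {hb : ∀ k ≤ K, ∀ z z', z' ∈ g.cube k z → (b k z' ↔ b k z)} {hK : ∀ z, ¬ b K z} {z : X}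
    (h : (ofCond g K b hb hK).S 0 z) : b ((ofCond g K b hb hK).m z) z := by
  set R := ofCond g K b hb hK with hR
  have h1 := (R.m_eq_iff (z := z) (k := R.m z)).mp ⟨h, rfl⟩
  obtain ⟨m, h2, h3, h4⟩ := h1.1
  rcases h2.eq_or_lt with h5 | h5
  · exact h5 ▸ h4
  · exact absurd ⟨m, h5, h3, h4⟩ h1.2

end

end Vale.Agent.P141.PL.H990
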